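import Vale.Agent.Lib.P071.Forms

/-!
Annular sectors: the upper bound for the first eigenvalue.
-/

namespace Vale.Agent.Lib.P071

open MeasureTheory Set intervalIntegral Filter Topology

variable {a b α : ℝ}

/-- the angular test function -/
noncomputable def V1 (α : ℝ) (p : ℝ × ℝ) : ℝ := md α 1 p.2

lemma contDiff_V1 (α : ℝ) : ContDiff ℝ 1 (V1 α) := (contDiff_md α 1).comp contDiff_snd

lemma Dr_V1 {r θ : ℝ} (hp : (r, θ) ∈ Qo a b α) : Dr (V1 α) (r, θ) = 0 :=
  Dr_eq_of_hasDerivAt (contDiff_V1 α).contDiffOn hp (hasDerivAt_const r (md α 1 θ))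

lemma Dt_V1 {r θ : ℝ} (hp : (r, θ) ∈ Qo a b α) : Dt (V1 α) (r, θ) = md' α 1 θ :=
  Dt_eq_of_hasDerivAt (contDiff_V1 α).contDiffOn hp (hasDerivAt_md α 1 θ)

lemma admP_V1 (hα : 0 < α) : AdmP a b α (V1 α) := by
  refine ⟨(contDiff_V1 α).contDiffOn, 1 + fr α 1, ?_⟩
  rintro ⟨r, θ⟩ hp
  have h0 := fr_nonneg hα 1
  refine ⟨?_, ?_, ?_⟩
  · have := abs_md_le α 1 θ
    unfold V1
    simp only
    linarith
  · rw [Dr_V1 hp]; simp; linarith
  · rw [Dt_V1 hp]
    have := abs_md'_le hα 1 θ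
    linarith

lemma integral_md'_sq (hα : 0 < α) :
    ∫ θ in (-α)..α, md' α 1 θ * md' α 1 θ = (fr α 1) ^ 2 * α := by
  have h := ibp_angular (a := 0) (b := 2) hα (admP_V1 hα) 1 (r := 1) ⟨by norm_num, by norm_num⟩
  have e1 : ∫ θ in (-α)..α, Dt (V1 α) (1, θ) * md' α 1 θ =
      ∫ θ in (-α)..α, md' α 1 θ * md' α 1 θ := by
    apply intervalIntegral.integral_congr_Ioo_of_le (by linarith)
    intro θ hθ
    beta_reduce
    rw [Dt_V1 (a := 0) (b := 2) ⟨⟨by norm_num, by norm_num⟩, hθ⟩]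
  have e2 : coef α (V1 α) 1 1 = α := by
    unfold coef V1
    simp only
    rw [integral_md_one_mul hα 1]
    simp
  rw [← e1, h, e2]

lemma formP_V1 (hab : a ≤ b) (hα : 0 < α) :
    formP a b α (V1 α) (V1 α) = ∫ r in a..b, (fr α 1) ^ 2 * α / r := by
  unfold formP
  apply intervalIntegral.integral_congr_Ioo_of_le hab
  intro r hr
  beta_reduce
  have e : ∫ θ in (-α)..α, (Dr (V1 α) (r, θ) * Dr (V1 α) (r, θ) +
      Dt (V1 α) (r, θ) * Dt (V1 α) (r, θ) / r ^ 2) * r =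
      ∫ θ in (-α)..α, (r / r ^ 2) * (md' α 1 θ * md' α 1 θ) := by
    apply intervalIntegral.integral_congr_Ioo_of_le (by linarith)
    intro θ hθ
    beta_reduce
    rw [Dr_V1 ⟨hr, hθ⟩, Dt_V1 ⟨hr, hθ⟩]
    ring
  rw [e, intervalIntegral.integral_const_mul, integral_md'_sq hα]
  by_cases hr0 : r = 0
  · simp [hr0]
  · field_simp

lemma pairP_V1 (hab : a ≤ b) (hα : 0 < α) :
    pairP a b α (V1 α) (V1 α) = ∫ r in a..b, α * r := by
  unfold pairP
  apply intervalIntegral.integral_congr_Ioo_of_le hab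
  intro r _
  beta_reduce
  unfold V1
  simp only
  rw [intervalIntegral.integral_mul_const, integral_md_one_mul hα 1]
  simp

lemma formP_congr_left (hab : a ≤ b) (h0 : 0 ≤ α) (U : ℝ × ℝ → ℝ) {V W : ℝ × ℝ → ℝ}
    (h : EqOn V W (Qo a b α)) : formP a b α V U = formP a b α W U := by
  unfold formP
  apply intervalIntegral.integral_congr_Ioo_of_le hab
  intro r hr
  apply intervalIntegral.integral_congr_Ioo_of_le (by linarith)
  intro θ hθ
  have hq : (r, θ) ∈ Qo a b α := ⟨hr, hθ⟩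
  beta_reduce
  rw [Dr_eq_of_eqOn h hq, Dt_eq_of_eqOn h hq]

lemma pairP_congr_left (hab : a ≤ b) (h0 : 0 ≤ α) (U : ℝ × ℝ → ℝ) {V W : ℝ × ℝ → ℝ}
    (h : EqOn V W (Qo a b α)) : pairP a b α V U = pairP a b α W U := by
  unfold pairP
  apply intervalIntegral.integral_congr_Ioo_of_le hab
  intro r hr
  apply intervalIntegral.integral_congr_Ioo_of_le (by linarith)
  intro θ hθ
  have hq : (r, θ) ∈ Qo a b α := ⟨hr, hθ⟩
  beta_reduce
  rw [h hq]

lemma rayleigh_bddBelow (Ω : Set (ℝ × ℝ)) :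
    BddBelow {t : ℝ | ∃ v, Adm Ω v ∧ ∫ p in Ω, v p = 0 ∧ 0 < l2 Ω v v ∧
      t = dirichlet Ω v v / l2 Ω v v} := by
  refine ⟨0, ?_⟩
  rintro t ⟨v, _, _, hpos, rfl⟩
  apply div_nonneg _ hpos.le
  unfold dirichlet
  apply MeasureTheory.integral_nonneg
  intro p
  exact add_nonneg (mul_self_nonneg (D1 v p)) (mul_self_nonneg (D2 v p))

lemma mu1_le (ha : 0 < a) (hab : a < b) (h0 : 0 < α) (hα : α ≤ Real.pi) :
    mu1 (sector a b α) ≤ (fr α 1) ^ 2 / a ^ 2 := by
  have hw : Adm (sector a b α) (V1 α ∘ polarCoord) := adm_of_admP ha hα (admP_V1 h0)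
  have heq : EqOn ((V1 α ∘ polarCoord) ∘ polarCoord.symm) (V1 α) (Qo a b α) :=
    fun q hq => push_comp_eq ha hα (V1 α) hq
  have hD : dirichlet (sector a b α) (V1 α ∘ polarCoord) (V1 α ∘ polarCoord) =
      ∫ r in a..b, (fr α 1) ^ 2 * α / r := by
    rw [dirichlet_eq ha hab.le h0.le hα hw hw, formP_congr hab.le h0.le _ heq,
      formP_congr_left hab.le h0.le _ heq, formP_V1 hab.le h0]
  have hL : l2 (sector a b α) (V1 α ∘ polarCoord) (V1 α ∘ polarCoord) = ∫ r in a..b, α * r := by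
    rw [l2_eq ha hab.le h0.le hα hw hw, pairP_congr hab.le h0.le _ heq,
      pairP_congr_left hab.le h0.le _ heq, pairP_V1 hab.le h0]
  have hLv : ∫ r in a..b, α * r = α * ((b ^ 2 - a ^ 2) / 2) := by
    rw [intervalIntegral.integral_const_mul, integral_id]
  have hLpos : 0 < l2 (sector a b α) (V1 α ∘ polarCoord) (V1 α ∘ polarCoord) := by
    rw [hL, hLv]
    have : 0 < b ^ 2 - a ^ 2 := by nlinarith
    positivity
  have hmean : ∫ p in sector a b α, (V1 α ∘ polarCoord) p = 0 := by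
    rw [mean_eq ha hab.le h0.le hα hw]
    have : ∫ r in a..b, r * coef α ((V1 α ∘ polarCoord) ∘ polarCoord.symm) 0 r =
        ∫ r in a..b, (0 : ℝ) := by
      apply intervalIntegral.integral_congr_Ioo_of_le hab.le
      intro r hr
      beta_reduce
      have : coef α ((V1 α ∘ polarCoord) ∘ polarCoord.symm) 0 r = ∫ θ in (-α)..α, md α 1 θ := by
        unfold coef
        apply intervalIntegral.integral_congr_Ioo_of_le (by linarith)
        intro θ hθ
        beta_reduce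
        rw [heq ⟨hr, hθ⟩, md_zero]
        simp [V1]
      rw [this, integral_md h0 le_rfl, mul_zero]
    rw [this]; simp
  have h1 : mu1 (sector a b α) ≤ dirichlet (sector a b α) (V1 α ∘ polarCoord) (V1 α ∘ polarCoord) /
      l2 (sector a b α) (V1 α ∘ polarCoord) (V1 α ∘ polarCoord) :=
    csInf_le (rayleigh_bddBelow _) ⟨_, hw, hmean, hLpos, rfl⟩
  refine h1.trans ?_
  rw [div_le_iff₀ hLpos, hD, hL, ← intervalIntegral.integral_const_mul]
  have hcont1 : ContinuousOn (fun r : ℝ => (fr α 1) ^ 2 * α / r) (uIcc a b) := by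
    apply ContinuousOn.div continuousOn_const continuousOn_id
    intro r hr
    rw [uIcc_of_le hab.le] at hr
    exact (lt_of_lt_of_le ha hr.1).ne'
  apply intervalIntegral.integral_mono_on hab.le hcont1.intervalIntegrable
    (by apply Continuous.intervalIntegrable; fun_prop)
  intro r hr
  have hr0 : 0 < r := lt_of_lt_of_le ha hr.1
  have hfr : 0 ≤ (fr α 1) ^ 2 * α := by positivity
  rw [div_le_iff₀ hr0]
  have e : fr α 1 ^ 2 / a ^ 2 * (α * r) * r = (fr α 1 ^ 2 * α) * (r ^ 2 / a ^ 2) := by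
    field_simp
  rw [e]
  have : 1 ≤ r ^ 2 / a ^ 2 := by
    rw [le_div_iff₀ (by positivity)]
    nlinarith [hr.1]
  nlinarith

end Vale.Agent.Lib.P071
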