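import Vale.Agent.Lib.P071.Energy

/-!
Vanishing of all angular modes except the first one.
-/

namespace Vale.Agent.Lib.P071

open MeasureTheory Set intervalIntegral Filter Topology

section modes

variable {a b α : ℝ} {U : ℝ × ℝ → ℝ}

lemma coef_facts (hα : 0 < α) (hU : AdmP a b α U) (j : ℕ) :
    ContinuousOn (coef α U j) (Ioo a b) ∧ ∃ M, 0 ≤ M ∧ ∀ r ∈ Ioo a b,
      |coef α U j r| ≤ M ∧ |coef' α U j r| ≤ M := by
  refine ⟨(contDiffOn_coef hα hU j).continuousOn, ?_⟩
  obtain ⟨M, hM⟩ := hU.2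
  refine ⟨|2 * α * M|, abs_nonneg _, fun r hr => ⟨?_, ?_⟩⟩
  · exact le_trans (abs_slice_integral_le hα (fun p hp => (hM p hp).1) j hr) (le_abs_self _)
  · exact le_trans (abs_slice_integral_le hα (fun p hp => (hM p hp).2.1) j hr) (le_abs_self _)

/-- integrability of the three radial densities -/
lemma radial_ii (ha : 0 < a) (hab : a < b) {c : ℝ → ℝ} {M : ℝ} (hc : ContinuousOn c (Ioo a b))
    (hM : ∀ r ∈ Ioo a b, |c r| ≤ M) :
    IntervalIntegrable (fun r => r * c r ^ 2) volume a b ∧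
      IntervalIntegrable (fun r => c r ^ 2 / r) volume a b := by
  have hb : 0 < b := lt_trans ha hab
  constructor
  · refine ii_of_bdd (M := b * M ^ 2) hab.le (continuousOn_id.mul (hc.pow 2)) fun t ht => ?_
    rw [abs_mul, abs_pow, abs_of_pos (lt_trans ha ht.1)]
    exact mul_le_mul ht.2.le (pow_le_pow_left₀ (abs_nonneg _) (hM t ht) 2) (by positivity) hb.le
  · refine ii_of_bdd (M := M ^ 2 / a) hab.le
      ((hc.pow 2).div continuousOn_id fun t ht => (lt_trans ha ht.1).ne') fun t ht => ?_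
    have ht0 : 0 < t := lt_trans ha ht.1
    rw [abs_div, abs_pow, abs_of_pos ht0]
    exact div_le_div₀ (by positivity) (pow_le_pow_left₀ (abs_nonneg _) (hM t ht) 2) ha ht.1.le

/-- high modes vanish -/
lemma coef_high_zero (ha : 0 < a) (hab : a < b) (hb : b < 2 * a) (hα : 0 < α) (hU : AdmP a b α U)
    {μ : ℝ} (hμ : μ ≤ (fr α 1) ^ 2 / a ^ 2)
    (hw : ∀ V, AdmP a b α V → formP a b α U V = μ * pairP a b α U V) {j : ℕ} (hj : 2 ≤ j) :
    ∀ r ∈ Ioo a b, coef α U j r = 0 := by
  obtain ⟨hc, M, hM0, hM⟩ := coef_facts hα hU j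
  have hc' := continuousOn_coef' hα hU j
  obtain ⟨i1, i2⟩ := radial_ii ha hab hc fun r hr => (hM r hr).1
  obtain ⟨i3, -⟩ := radial_ii ha hab hc' fun r hr => (hM r hr).2
  have hid := hw _ (admP_proj hα hU j)
  rw [formP_proj ha hab hα hU j, pairP_proj hab j] at hid
  have e : ∀ r, (fr α j) ^ 2 * coef α U j r ^ 2 / r = (fr α j) ^ 2 * (coef α U j r ^ 2 / r) :=
    fun r => by ring
  simp only [e] at hid
  rw [intervalIntegral.integral_add i3 (i2.const_mul _), intervalIntegral.integral_const_mul] at hid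
  set I1 := ∫ r in a..b, r * coef α U j r ^ 2 with hI1
  set I2 := ∫ r in a..b, coef α U j r ^ 2 / r with hI2
  set I3 := ∫ r in a..b, r * coef' α U j r ^ 2 with hI3
  have hI3n : 0 ≤ I3 := by
    apply intervalIntegral.integral_nonneg hab.le
    intro r hr
    have : 0 ≤ r := le_trans ha.le hr.1
    positivity
  have hI1n : 0 ≤ I1 := by
    apply intervalIntegral.integral_nonneg hab.le
    intro r hr
    have : 0 ≤ r := le_trans ha.le hr.1
    positivity
  have hI2n : 0 ≤ I2 := by
    apply intervalIntegral.integral_nonneg hab.le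
    intro r hr
    have : 0 ≤ r := le_trans ha.le hr.1
    positivity
  have h12 : I1 ≤ b ^ 2 * I2 := by
    rw [hI1, hI2, ← intervalIntegral.integral_const_mul]
    apply intervalIntegral.integral_mono_on_of_le_Ioo hab.le i1 (i2.const_mul _)
    intro r hr
    have hr0 : 0 < r := lt_trans ha hr.1
    have h1 : r ^ 2 ≤ b ^ 2 := pow_le_pow_left₀ hr0.le hr.2.le 2
    have h2 : r * coef α U j r ^ 2 = r ^ 2 * (coef α U j r ^ 2 / r) := by field_simp
    rw [h2]
    exact mul_le_mul_of_nonneg_right h1 (by positivity)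
  have hfr : fr α j = j * fr α 1 := by unfold fr; simp
  have hν : 0 < fr α 1 := by
    unfold fr
    have := Real.pi_pos
    simp only [Nat.cast_one, one_mul]
    positivity
  have hj2 : (2 : ℝ) ≤ j := by exact_mod_cast hj
  have hkey : ((fr α j) ^ 2 - (fr α 1) ^ 2 / a ^ 2 * b ^ 2) * I2 ≤ 0 := by
    have h1 : μ * I1 ≤ (fr α 1) ^ 2 / a ^ 2 * I1 := mul_le_mul_of_nonneg_right hμ hI1n
    have h2 : (fr α 1) ^ 2 / a ^ 2 * I1 ≤ (fr α 1) ^ 2 / a ^ 2 * (b ^ 2 * I2) :=
      mul_le_mul_of_nonneg_left h12 (by positivity)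
    nlinarith
  have hpos : 0 < (fr α j) ^ 2 - (fr α 1) ^ 2 / a ^ 2 * b ^ 2 := by
    rw [hfr]
    have h1 : b ^ 2 < 4 * a ^ 2 := by nlinarith
    have h2 : (fr α 1) ^ 2 / a ^ 2 * b ^ 2 < (fr α 1) ^ 2 * 4 := by
      rw [div_mul_eq_mul_div, div_lt_iff₀ (by positivity)]
      have : 0 < (fr α 1) ^ 2 := by positivity
      nlinarith
    have h3 : (fr α 1) ^ 2 * 4 ≤ ((j : ℝ) * fr α 1) ^ 2 := by
      rw [mul_pow]
      have : (4 : ℝ) ≤ (j : ℝ) ^ 2 := by nlinarith
      have h4 : 0 < (fr α 1) ^ 2 := by positivity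
      nlinarith
    linarith
  have hI2z : I2 = 0 := by
    apply le_antisymm _ hI2n
    by_contra h
    rw [not_le] at h
    have := mul_pos hpos h
    linarith
  have hz := zero_of_integral_zero hab.le
    ((hc.pow 2).div continuousOn_id fun t ht => (lt_trans ha ht.1).ne')
    (fun r hr => by
      have : 0 < r := lt_trans ha hr.1
      show 0 ≤ coef α U j r ^ 2 / r
      positivity) i2 hI2z
  intro r hr
  have h1 := hz r hr
  have hr0 : 0 < r := lt_trans ha hr.1
  have h2 : coef α U j r ^ 2 = 0 := by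
    rcases div_eq_zero_iff.1 h1 with h | h
    · exact h
    · exact absurd h hr0.ne'
  exact pow_eq_zero_iff (by norm_num) |>.1 h2

/-- the zeroth mode vanishes -/
lemma coef_zero_zero (ha : 0 < a) (hab : a < b) (hb : b < 2 * a) (hα : 0 < α)
    (hwid : b - a ≤ a * α / 2) (hU : AdmP a b α U)
    {μ : ℝ} (hμ : μ ≤ (fr α 1) ^ 2 / a ^ 2)
    (hw : ∀ V, AdmP a b α V → formP a b α U V = μ * pairP a b α U V)
    (hmean : ∫ r in a..b, r * coef α U 0 r = 0) :
    ∀ r ∈ Ioo a b, coef α U 0 r = 0 := by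
  obtain ⟨hc, M, hM0, hM⟩ := coef_facts hα hU 0
  have hc' := continuousOn_coef' hα hU 0
  obtain ⟨i1, i2⟩ := radial_ii ha hab hc fun r hr => (hM r hr).1
  obtain ⟨i3, -⟩ := radial_ii ha hab hc' fun r hr => (hM r hr).2
  have hid := hw _ (admP_proj hα hU 0)
  rw [formP_proj ha hab hα hU 0, pairP_proj hab 0] at hid
  have hfr0 : fr α 0 = 0 := by unfold fr; simp
  simp only [hfr0, ne_eq, OfNat.ofNat_ne_zero, not_false_eq_true, zero_pow, zero_mul, zero_div,
    add_zero] at hid
  set I1 := ∫ r in a..b, r * coef α U 0 r ^ 2 with hI1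
  set I3 := ∫ r in a..b, r * coef' α U 0 r ^ 2 with hI3
  have hI3n : 0 ≤ I3 := by
    apply intervalIntegral.integral_nonneg hab.le
    intro r hr
    have : 0 ≤ r := le_trans ha.le hr.1
    positivity
  have hI1n : 0 ≤ I1 := by
    apply intervalIntegral.integral_nonneg hab.le
    intro r hr
    have : 0 ≤ r := le_trans ha.le hr.1
    positivity
  have hP := radial_poincare ha hab (fun r hr => hasDerivAt_coef hα hU 0 hr) hc'
    (fun r hr => (hM r hr).2) (fun r hr => (hM r hr).1) hmean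
  rw [← hI1, ← hI3] at hP
  set CP := (b - a) * (b ^ 2 - a ^ 2) / (2 * a) with hCP
  have hCP0 : 0 ≤ CP := by
    rw [hCP]
    have h1 : 0 ≤ b - a := by linarith
    have h2 : 0 ≤ b ^ 2 - a ^ 2 := by nlinarith
    positivity
  -- `(ν²/a²) CP < 1`
  have hsmall : (fr α 1) ^ 2 / a ^ 2 * CP ≤ 15 / 16 := by
    have hfr1 : fr α 1 = Real.pi / (2 * α) := by unfold fr; simp
    rw [hfr1, hCP]
    have hpi : Real.pi ^ 2 < 10 := by
      have h1 := Real.pi_lt_d2
      have h2 := Real.pi_pos
      nlinarith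
    have hd0 : 0 ≤ b - a := by linarith
    have h1 : (b - a) ^ 2 ≤ (a * α / 2) ^ 2 := pow_le_pow_left₀ hd0 hwid 2
    have h2 : (b - a) * (b ^ 2 - a ^ 2) ≤ (a * α / 2) ^ 2 * (3 * a) := by
      have e : (b - a) * (b ^ 2 - a ^ 2) = (b - a) ^ 2 * (a + b) := by ring
      rw [e]
      exact mul_le_mul h1 (by linarith) (by linarith) (by positivity)
    have e2 : (Real.pi / (2 * α)) ^ 2 / a ^ 2 * ((b - a) * (b ^ 2 - a ^ 2) / (2 * a)) =
        Real.pi ^ 2 * ((b - a) * (b ^ 2 - a ^ 2)) / (8 * α ^ 2 * a ^ 3) := by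
      field_simp
      ring
    rw [e2, div_le_iff₀ (by positivity)]
    have h3 : Real.pi ^ 2 * ((b - a) * (b ^ 2 - a ^ 2)) ≤ 10 * ((a * α / 2) ^ 2 * (3 * a)) :=
      mul_le_mul hpi.le h2 (by
        have : 0 ≤ b ^ 2 - a ^ 2 := by nlinarith
        positivity) (by norm_num)
    have e3 : 10 * ((a * α / 2) ^ 2 * (3 * a)) = 15 / 16 * (8 * α ^ 2 * a ^ 3) := by ring
    linarith
  have hI1z : I1 = 0 := by
    have h1 : μ * I1 ≤ (fr α 1) ^ 2 / a ^ 2 * I1 := mul_le_mul_of_nonneg_right hμ hI1n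
    have h2 : (fr α 1) ^ 2 / a ^ 2 * I1 ≤ (fr α 1) ^ 2 / a ^ 2 * (CP * I3) :=
      mul_le_mul_of_nonneg_left hP (by positivity)
    have h3 : (fr α 1) ^ 2 / a ^ 2 * (CP * I3) ≤ 15 / 16 * I3 := by
      rw [← mul_assoc]
      exact mul_le_mul_of_nonneg_right hsmall hI3n
    have h4 : I3 = 0 := by linarith
    rw [h4, mul_zero] at hP
    linarith
  have hz := zero_of_integral_zero hab.le (continuousOn_id.mul (hc.pow 2))
    (fun r hr => by
      have : 0 < r := lt_trans ha hr.1
      show 0 ≤ r * coef α U 0 r ^ 2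
      positivity) i1 hI1z
  intro r hr
  have h1 : r * coef α U 0 r ^ 2 = 0 := hz r hr
  have hr0 : 0 < r := lt_trans ha hr.1
  have h2 : coef α U 0 r ^ 2 = 0 := by
    rcases mul_eq_zero.1 h1 with h | h
    · exact absurd h hr0.ne'
    · exact h
  exact pow_eq_zero_iff (by norm_num) |>.1 h2

end modes

section ortho

variable {α : ℝ}

lemma fr_pos (hα : 0 < α) {m : ℕ} (hm : 1 ≤ m) : 0 < fr α m := by
  unfold fr
  have := Real.pi_pos
  have : (0 : ℝ) < m := by exact_mod_cast hm
  positivity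

lemma integral_md (hα : 0 < α) {m : ℕ} (hm : 1 ≤ m) : ∫ θ in (-α)..α, md α m θ = 0 := by
  have hf := fr_pos hα hm
  have hder : ∀ θ ∈ uIcc (-α) α,
      HasDerivAt (fun θ => Real.sin (m * ph α θ) / fr α m) (md α m θ) θ := by
    intro θ _
    have := ((Real.hasDerivAt_sin _).comp θ (hasDerivAt_jph α m θ)).div_const (fr α m)
    have e : md α m θ = Real.cos (m * ph α θ) * fr α m / fr α m := by
      unfold md; field_simp
    rw [e]
    exact this
  rw [intervalIntegral.integral_eq_sub_of_hasDerivAt hder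
    ((continuous_md α m).intervalIntegrable _ _)]
  have e1 : (m : ℝ) * ph α α = m * Real.pi := by unfold ph; field_simp; ring
  have e2 : (m : ℝ) * ph α (-α) = 0 := by unfold ph; simp
  rw [e1, e2, Real.sin_nat_mul_pi, Real.sin_zero]
  simp

lemma md_zero (θ : ℝ) : md α 0 θ = 1 := by unfold md; simp

lemma integral_md_one_mul (hα : 0 < α) (j : ℕ) :
    ∫ θ in (-α)..α, md α 1 θ * md α j θ = if j = 1 then α else 0 := by
  rcases j with _ | j
  · simp only [md_zero, mul_one]
    rw [integral_md hα le_rfl]; simp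
  · have e : ∀ θ, md α 1 θ * md α (j + 1) θ = (1 / 2) * md α (j + 2) θ + (1 / 2) * md α j θ := by
      intro θ
      unfold md
      have e1 : (((j + 2 : ℕ) : ℝ) * ph α θ) = ((j + 1 : ℕ) : ℝ) * ph α θ + ph α θ := by
        push_cast; ring
      have e2 : (((j : ℕ) : ℝ) * ph α θ) = ((j + 1 : ℕ) : ℝ) * ph α θ - ph α θ := by
        push_cast; ring
      rw [e1, e2, Real.cos_add, Real.cos_sub]
      simp only [Nat.cast_one, one_mul]
      ring
    simp only [e]
    rw [intervalIntegral.integral_add (((continuous_md α _).intervalIntegrable _ _).const_mul _)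
      (((continuous_md α _).intervalIntegrable _ _).const_mul _),
      intervalIntegral.integral_const_mul, intervalIntegral.integral_const_mul,
      integral_md hα (by omega : 1 ≤ j + 2)]
    rcases j with _ | j
    · simp only [md_zero]
      simp
      ring
    · rw [integral_md hα (by omega : 1 ≤ j + 1)]
      simp

end ortho

/-- Structure theorem: the eigenfunction is a radial profile times the first angular mode. -/
theorem polar_structure {a b α : ℝ} {U : ℝ × ℝ → ℝ} (ha : 0 < a) (hab : a < b) (hb : b < 2 * a)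
    (hα : 0 < α) (hwid : b - a ≤ a * α / 2) (hU : AdmP a b α U)
    (hcont : ContinuousOn U (Ioo a b ×ˢ Icc (-α) α))
    {μ : ℝ} (hμ : μ ≤ (fr α 1) ^ 2 / a ^ 2)
    (hw : ∀ V, AdmP a b α V → formP a b α U V = μ * pairP a b α U V)
    (hmean : ∫ r in a..b, r * coef α U 0 r = 0) :
    ∀ r ∈ Ioo a b, ∀ θ ∈ Icc (-α) α, U (r, θ) = coef α U 1 r / α * md α 1 θ := by
  intro r hr
  have hle : -α ≤ α := by linarith
  have hUc : ContinuousOn (fun θ => U (r, θ)) (Icc (-α) α) :=
    hcont.comp (continuousOn_const.prodMk continuousOn_id) fun θ hθ => ⟨hr, hθ⟩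
  have hh : ContinuousOn (fun θ => U (r, θ) - coef α U 1 r / α * md α 1 θ) (Icc (-α) α) :=
    hUc.sub (continuousOn_const.mul (continuous_md α 1).continuousOn)
  have hz : ∀ j : ℕ, ∫ θ in (-α)..α,
      (U (r, θ) - coef α U 1 r / α * md α 1 θ) * Real.cos (j * ph α θ) = 0 := by
    intro j
    have e : ∀ θ, (U (r, θ) - coef α U 1 r / α * md α 1 θ) * Real.cos (j * ph α θ) =
        U (r, θ) * md α j θ - coef α U 1 r / α * (md α 1 θ * md α j θ) := by
      intro θ; unfold md; ring
    simp only [e]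
    have i1 : IntervalIntegrable (fun θ => U (r, θ) * md α j θ) volume (-α) α := by
      apply ContinuousOn.intervalIntegrable
      rw [uIcc_of_le hle]
      exact hUc.mul (continuous_md α j).continuousOn
    have i2 : IntervalIntegrable (fun θ => md α 1 θ * md α j θ) volume (-α) α :=
      ((continuous_md α 1).mul (continuous_md α j)).intervalIntegrable _ _
    rw [intervalIntegral.integral_sub i1 (i2.const_mul _), intervalIntegral.integral_const_mul,
      integral_md_one_mul hα j]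
    show coef α U j r - _ = 0
    by_cases hj1 : j = 1
    · subst hj1
      simp only [if_true]
      field_simp
      ring
    · simp only [hj1, if_false, mul_zero, sub_zero]
      rcases Nat.lt_or_ge j 2 with h | h
      · have : j = 0 := by omega
        subst this
        exact coef_zero_zero ha hab hb hα hwid hU hμ hw hmean r hr
      · exact coef_high_zero ha hab hb hα hU hμ hw h r hr
  intro θ hθ
  have := cos_complete hα hh hz θ hθ
  linarith

end Vale.Agent.Lib.P071
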