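import Vale.Agent.Lib.P071.Defs
import Vale.Agent.Lib.P071.Structure

/-!
Annular sectors: passage between Cartesian and polar coordinates (geometry and integrals).
-/

namespace Vale.Agent.Lib.P071

open MeasureTheory Set intervalIntegral Filter Topology

variable {a b α : ℝ}

lemma Ph_apply (r θ : ℝ) : polarCoord.symm (r, θ) = (r * Real.cos θ, r * Real.sin θ) := rfl

lemma Qo_subset_target (ha : 0 < a) (hα : α ≤ Real.pi) : Qo a b α ⊆ polarCoord.target := by
  rintro ⟨r, θ⟩ ⟨hr, hθ⟩
  rw [polarCoord_target]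
  exact ⟨lt_trans ha hr.1, by simp only [mem_Ioo] at hθ ⊢; constructor <;> linarith⟩

lemma sector_eq : sector a b α = polarCoord.symm '' Qo a b α := by
  ext p
  constructor
  · rintro ⟨r, θ, h1, h2, h3, h4, rfl⟩
    exact ⟨(r, θ), ⟨⟨h1, h2⟩, ⟨h3, h4⟩⟩, rfl⟩
  · rintro ⟨⟨r, θ⟩, ⟨⟨h1, h2⟩, ⟨h3, h4⟩⟩, rfl⟩
    exact ⟨r, θ, h1, h2, h3, h4, rfl⟩

lemma Ph_mem_sector {q : ℝ × ℝ} (hq : q ∈ Qo a b α) : polarCoord.symm q ∈ sector a b α := by
  rw [sector_eq]; exact mem_image_of_mem _ hq

lemma mem_sector_iff (ha : 0 < a) (hα : α ≤ Real.pi) {q : ℝ × ℝ} (hq : q ∈ polarCoord.target) :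
    polarCoord.symm q ∈ sector a b α ↔ q ∈ Qo a b α := by
  constructor
  · intro h
    rw [sector_eq] at h
    obtain ⟨q', hq', he⟩ := h
    have := polarCoord.symm.injOn (Qo_subset_target ha hα hq') hq he
    rwa [← this]
  · exact Ph_mem_sector

lemma isOpen_sector (ha : 0 < a) (hα : α ≤ Real.pi) : IsOpen (sector a b α) := by
  rw [sector_eq]
  exact polarCoord.symm.isOpen_image_of_subset_source (isOpen_Qo a b α) (Qo_subset_target ha hα)

lemma sector_subset_source (ha : 0 < a) (hα : α ≤ Real.pi) :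
    sector a b α ⊆ polarCoord.source := by
  rw [sector_eq]
  rintro _ ⟨q, hq, rfl⟩
  exact polarCoord.map_target (Qo_subset_target ha hα hq)

lemma polar_mem_Qo (ha : 0 < a) (hα : α ≤ Real.pi) {x : ℝ × ℝ} (hx : x ∈ sector a b α) :
    polarCoord x ∈ Qo a b α := by
  rw [sector_eq] at hx
  obtain ⟨q, hq, rfl⟩ := hx
  rwa [polarCoord.right_inv (Qo_subset_target ha hα hq)]

lemma integral_sector (ha : 0 < a) (hα : α ≤ Real.pi) (g : ℝ × ℝ → ℝ) :
    ∫ p in sector a b α, g p = ∫ q in Qo a b α, q.1 * g (polarCoord.symm q) := by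
  rw [← MeasureTheory.integral_indicator (isOpen_sector ha hα).measurableSet,
    ← integral_comp_polarCoord_symm,
    ← MeasureTheory.integral_indicator polarCoord.open_target.measurableSet,
    ← MeasureTheory.integral_indicator (isOpen_Qo a b α).measurableSet]
  congr 1
  ext q
  by_cases hq : q ∈ Qo a b α
  · have ht := Qo_subset_target ha hα hq
    rw [indicator_of_mem ht, indicator_of_mem hq, indicator_of_mem (Ph_mem_sector hq)]
    simp
  · by_cases ht : q ∈ polarCoord.target
    · have : polarCoord.symm q ∉ sector a b α := fun h => hq ((mem_sector_iff ha hα ht).1 h)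
      rw [indicator_of_mem ht, indicator_of_notMem hq, indicator_of_notMem this]
      simp
    · rw [indicator_of_notMem ht, indicator_of_notMem hq]

lemma integrableOn_Qo {F : ℝ × ℝ → ℝ} (hF : ContinuousOn F (Qo a b α)) {M : ℝ}
    (hM : ∀ p ∈ Qo a b α, |F p| ≤ M) : IntegrableOn F (Qo a b α) := by
  have hfin : volume (Qo a b α) < ⊤ := by
    unfold Qo
    rw [Measure.volume_eq_prod, Measure.prod_prod]
    exact ENNReal.mul_lt_top measure_Ioo_lt_top measure_Ioo_lt_top
  refine IntegrableOn.of_bound hfin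
    (hF.aestronglyMeasurable (isOpen_Qo a b α).measurableSet) M ?_
  rw [ae_restrict_iff' (isOpen_Qo a b α).measurableSet]
  exact ae_of_all _ fun x hx => by simpa using hM x hx

lemma integral_Qo (hab : a ≤ b) (hα : 0 ≤ α) {F : ℝ × ℝ → ℝ} (hF : ContinuousOn F (Qo a b α))
    {M : ℝ} (hM : ∀ p ∈ Qo a b α, |F p| ≤ M) :
    ∫ q in Qo a b α, F q = ∫ r in a..b, ∫ θ in (-α)..α, F (r, θ) := by
  have hint := integrableOn_Qo hF hM
  unfold Qo at hint ⊢
  rw [Measure.volume_eq_prod] at hint ⊢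
  rw [setIntegral_prod _ hint, integral_of_le hab, integral_Ioc_eq_integral_Ioo]
  apply setIntegral_congr_fun measurableSet_Ioo
  intro r _
  simp only
  rw [integral_of_le (by linarith), integral_Ioc_eq_integral_Ioo]

/-- integration over the sector in polar coordinates -/
lemma integral_sector_iter (ha : 0 < a) (hab : a ≤ b) (h0 : 0 ≤ α) (hα : α ≤ Real.pi)
    {g : ℝ × ℝ → ℝ} (hg : ContinuousOn g (sector a b α)) {M : ℝ}
    (hM : ∀ p ∈ sector a b α, |g p| ≤ M) :
    ∫ p in sector a b α, g p =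
      ∫ r in a..b, ∫ θ in (-α)..α, r * g (polarCoord.symm (r, θ)) := by
  rw [integral_sector ha hα]
  have hc : ContinuousOn (fun q : ℝ × ℝ => q.1 * g (polarCoord.symm q)) (Qo a b α) :=
    continuousOn_fst.mul (hg.comp continuous_polarCoord_symm.continuousOn
      fun q hq => Ph_mem_sector hq)
  refine integral_Qo hab h0 hc (M := b * M) fun q hq => ?_
  have h1 := hM _ (Ph_mem_sector hq)
  have h2 : 0 < q.1 := lt_trans ha hq.1.1
  have h3 : q.1 < b := hq.1.2
  rw [abs_mul, abs_of_pos h2]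
  have := abs_nonneg (g (polarCoord.symm q))
  nlinarith

end Vale.Agent.Lib.P071
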