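import Vale.Agent.Lib.P071.OneD

/-!
Completeness of the Neumann cosines on `[-α, α]`.
-/

namespace Vale.Agent.Lib.P071

open MeasureTheory Set intervalIntegral Filter Topology

/-- the phase `π (θ + α) / (2 α)` -/
noncomputable def ph (α θ : ℝ) : ℝ := Real.pi / (2 * α) * (θ + α)

lemma continuous_ph (α : ℝ) : Continuous (ph α) := by
  unfold ph; fun_prop

lemma ph_mem {α θ : ℝ} (hα : 0 < α) (hθ : θ ∈ Icc (-α) α) : ph α θ ∈ Icc 0 Real.pi := by
  unfold ph
  have hpi := Real.pi_pos
  constructor
  · have : 0 ≤ θ + α := by linarith [hθ.1]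
    positivity
  · have h1 : θ + α ≤ 2 * α := by linarith [hθ.2]
    calc Real.pi / (2 * α) * (θ + α) ≤ Real.pi / (2 * α) * (2 * α) :=
          mul_le_mul_of_nonneg_left h1 (by positivity)
      _ = Real.pi := by field_simp

lemma cos_moments {h : ℝ → ℝ} {α : ℝ} (hc : ContinuousOn h (Icc (-α) α)) (hα : 0 < α)
    (hz : ∀ j : ℕ, ∫ θ in (-α)..α, h θ * Real.cos (j * ph α θ) = 0) (m : ℕ) :
    ∀ j : ℕ, ∫ θ in (-α)..α, h θ * Real.cos (ph α θ) ^ m * Real.cos (j * ph α θ) = 0 := by
  have hle : -α ≤ α := by linarith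
  have hint : ∀ (m j : ℕ), IntervalIntegrable
      (fun θ => h θ * Real.cos (ph α θ) ^ m * Real.cos (j * ph α θ)) volume (-α) α := by
    intro m j
    apply ContinuousOn.intervalIntegrable
    rw [uIcc_of_le hle]
    have h1 : Continuous fun θ => Real.cos (ph α θ) ^ m :=
      (Real.continuous_cos.comp (continuous_ph α)).pow m
    have h2 : Continuous fun θ => Real.cos (j * ph α θ) :=
      Real.continuous_cos.comp (continuous_const.mul (continuous_ph α))
    exact (hc.mul h1.continuousOn).mul h2.continuousOn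
  induction m with
  | zero => intro j; simpa using hz j
  | succ m ih =>
    intro j
    rcases j with _ | j
    · have e : ∀ θ, h θ * Real.cos (ph α θ) ^ (m + 1) * Real.cos (((0 : ℕ) : ℝ) * ph α θ) =
          h θ * Real.cos (ph α θ) ^ m * Real.cos (((1 : ℕ) : ℝ) * ph α θ) := by
        intro θ
        simp only [Nat.cast_zero, zero_mul, Real.cos_zero, Nat.cast_one, one_mul]
        ring
      simp only [e]
      exact ih 1
    · have e : ∀ θ, h θ * Real.cos (ph α θ) ^ (m + 1) * Real.cos (((j + 1 : ℕ) : ℝ) * ph α θ) =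
          (1 / 2) * (h θ * Real.cos (ph α θ) ^ m * Real.cos (((j + 2 : ℕ) : ℝ) * ph α θ)) +
          (1 / 2) * (h θ * Real.cos (ph α θ) ^ m * Real.cos (((j : ℕ) : ℝ) * ph α θ)) := by
        intro θ
        have e1 : (((j + 2 : ℕ) : ℝ) * ph α θ) = ((j + 1 : ℕ) : ℝ) * ph α θ + ph α θ := by
          push_cast; ring
        have e2 : (((j : ℕ) : ℝ) * ph α θ) = ((j + 1 : ℕ) : ℝ) * ph α θ - ph α θ := by
          push_cast; ring
        rw [e1, e2, Real.cos_add, Real.cos_sub]
        ring
      simp only [e]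
      rw [intervalIntegral.integral_add ((hint m (j + 2)).const_mul _) ((hint m j).const_mul _),
        intervalIntegral.integral_const_mul, intervalIntegral.integral_const_mul, ih (j + 2), ih j]
      simp

lemma cos_poly {h : ℝ → ℝ} {α : ℝ} (hc : ContinuousOn h (Icc (-α) α)) (hα : 0 < α)
    (hz : ∀ j : ℕ, ∫ θ in (-α)..α, h θ * Real.cos (j * ph α θ) = 0) (p : Polynomial ℝ) :
    ∫ θ in (-α)..α, h θ * p.eval (Real.cos (ph α θ)) = 0 := by
  have hle : -α ≤ α := by linarith
  have e : ∀ θ, h θ * p.eval (Real.cos (ph α θ)) =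
      ∑ i ∈ Finset.range (p.natDegree + 1), p.coeff i * (h θ * Real.cos (ph α θ) ^ i) := by
    intro θ
    rw [Polynomial.eval_eq_sum_range, Finset.mul_sum]
    refine Finset.sum_congr rfl fun i _ => ?_
    ring
  simp only [e]
  have hint : ∀ i : ℕ, IntervalIntegrable (fun θ => h θ * Real.cos (ph α θ) ^ i) volume (-α) α := by
    intro i
    apply ContinuousOn.intervalIntegrable
    rw [uIcc_of_le hle]
    have h1 : Continuous fun θ => Real.cos (ph α θ) ^ i :=
      (Real.continuous_cos.comp (continuous_ph α)).pow i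
    exact hc.mul h1.continuousOn
  rw [intervalIntegral.integral_finsetSum fun i _ => (hint i).const_mul _]
  apply Finset.sum_eq_zero
  intro i _
  rw [intervalIntegral.integral_const_mul]
  have := cos_moments hc hα hz i 0
  simp only [Nat.cast_zero, zero_mul, Real.cos_zero, mul_one] at this
  rw [this, mul_zero]

/-- Completeness: a continuous function orthogonal to all Neumann cosines vanishes. -/
lemma cos_complete {h : ℝ → ℝ} {α : ℝ} (hα : 0 < α) (hc : ContinuousOn h (Icc (-α) α))
    (hz : ∀ j : ℕ, ∫ θ in (-α)..α, h θ * Real.cos (j * ph α θ) = 0) :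
    ∀ θ ∈ Icc (-α) α, h θ = 0 := by
  have hle : -α ≤ α := by linarith
  have hpi := Real.pi_pos
  obtain ⟨H, hH⟩ := isCompact_Icc.exists_bound_of_continuousOn hc
  have hH0 : 0 ≤ H := le_trans (norm_nonneg _) (hH α ⟨hle, le_rfl⟩)
  -- the function `k` with `k (cos (ph θ)) = h θ`
  set g : ℝ → ℝ := fun x => Real.arccos x * (2 * α / Real.pi) - α with hg
  have hgc : Continuous g := by
    rw [hg]; exact (Real.continuous_arccos.mul continuous_const).sub continuous_const
  have hgm : ∀ x, g x ∈ Icc (-α) α := by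
    intro x
    have h0 := Real.arccos_nonneg x
    have h1 := Real.arccos_le_pi x
    constructor
    · have : 0 ≤ Real.arccos x * (2 * α / Real.pi) := by positivity
      simp only [hg]; linarith
    · have : Real.arccos x * (2 * α / Real.pi) ≤ Real.pi * (2 * α / Real.pi) :=
        mul_le_mul_of_nonneg_right h1 (by positivity)
      have e : Real.pi * (2 * α / Real.pi) = 2 * α := by field_simp
      simp only [hg]; linarith
  have hk : Continuous (h ∘ g) := hc.comp_continuous hgc hgm
  have hkθ : ∀ θ ∈ Icc (-α) α, (h ∘ g) (Real.cos (ph α θ)) = h θ := by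
    intro θ hθ
    have hm := ph_mem hα hθ
    simp only [Function.comp, hg]
    rw [Real.arccos_cos hm.1 hm.2]
    congr 1
    unfold ph
    field_simp
    ring
  have hsq : ∫ θ in (-α)..α, h θ ^ 2 ≤ 0 := by
    apply le_of_forall_pos_le_add
    intro ε hε
    set ε' := ε / (H * (2 * α) + 1) with hε'
    have hden : 0 < H * (2 * α) + 1 := by positivity
    have hε'pos : 0 < ε' := by rw [hε']; positivity
    obtain ⟨p, hp⟩ := exists_polynomial_near_of_continuousOn (-1) 1 (h ∘ g) hk.continuousOn ε' hε'pos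
    have hp0 := cos_poly hc hα hz p
    have hpc : Continuous fun θ => p.eval (Real.cos (ph α θ)) :=
      p.continuous.comp (Real.continuous_cos.comp (continuous_ph α))
    have hi1 : IntervalIntegrable (fun θ => h θ ^ 2) volume (-α) α := by
      apply ContinuousOn.intervalIntegrable; rw [uIcc_of_le hle]; exact hc.pow 2
    have hi2 : IntervalIntegrable (fun θ => h θ * p.eval (Real.cos (ph α θ))) volume (-α) α := by
      apply ContinuousOn.intervalIntegrable; rw [uIcc_of_le hle]; exact hc.mul hpc.continuousOn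
    have e1 : ∫ θ in (-α)..α, h θ ^ 2 =
        ∫ θ in (-α)..α, (h θ ^ 2 - h θ * p.eval (Real.cos (ph α θ))) := by
      rw [intervalIntegral.integral_sub hi1 hi2, hp0, sub_zero]
    rw [e1]
    have hb : ‖∫ θ in (-α)..α, (h θ ^ 2 - h θ * p.eval (Real.cos (ph α θ)))‖ ≤
        (H * ε') * |α - -α| := by
      apply intervalIntegral.norm_integral_le_of_norm_le_const
      intro θ hθ
      rw [uIoc_of_le hle] at hθ
      have hθ' : θ ∈ Icc (-α) α := Ioc_subset_Icc_self hθ
      have h1 := hp (Real.cos (ph α θ)) ⟨Real.neg_one_le_cos _, Real.cos_le_one _⟩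
      rw [hkθ θ hθ'] at h1
      have e2 : h θ ^ 2 - h θ * p.eval (Real.cos (ph α θ)) =
          h θ * -(p.eval (Real.cos (ph α θ)) - h θ) := by ring
      rw [e2, norm_mul, norm_neg]
      exact mul_le_mul (hH θ hθ') (by rw [Real.norm_eq_abs]; exact h1.le) (norm_nonneg _) hH0
    have hb2 : (H * ε') * |α - -α| ≤ ε := by
      have e3 : |α - -α| = 2 * α := by rw [abs_of_pos (by linarith)]; ring
      rw [e3, hε']
      have : H * (ε / (H * (2 * α) + 1)) * (2 * α) = ε * (H * (2 * α) / (H * (2 * α) + 1)) := by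
        field_simp
      rw [this]
      have h2 : H * (2 * α) / (H * (2 * α) + 1) ≤ 1 := by
        rw [div_le_one hden]; linarith
      nlinarith
    have := le_trans (le_abs_self _) (le_trans hb hb2)
    linarith
  have hsq0 : ∫ θ in (-α)..α, h θ ^ 2 = 0 :=
    le_antisymm hsq (intervalIntegral.integral_nonneg hle fun θ _ => sq_nonneg _)
  have hi1 : IntervalIntegrable (fun θ => h θ ^ 2) volume (-α) α := by
    apply ContinuousOn.intervalIntegrable; rw [uIcc_of_le hle]; exact hc.pow 2
  have hz0 := zero_of_integral_zero hle ((hc.pow 2).mono Ioo_subset_Icc_self)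
    (fun θ _ => sq_nonneg _) hi1 hsq0
  have hEq : EqOn h (fun _ => (0 : ℝ)) (Ioo (-α) α) := fun θ hθ => by
    have := hz0 θ hθ
    simpa using this
  have := hEq.of_subset_closure hc continuousOn_const Ioo_subset_Icc_self
    (by rw [closure_Ioo (by linarith : -α ≠ α)])
  exact fun θ hθ => this hθ

end Vale.Agent.Lib.P071
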