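import Mathlib

/-!
P071: the first nontrivial Neumann eigenspace of a planar domain, tested on `C¹` functions with
bounded first derivatives, and annular sectors.
-/

namespace Vale.Agent.Lib.P071

open MeasureTheory

/-- The partial derivative of `v` in the first coordinate. -/
noncomputable def D1 (v : ℝ × ℝ → ℝ) (p : ℝ × ℝ) : ℝ := fderiv ℝ v p (1, 0)

/-- The partial derivative of `v` in the second coordinate. -/
noncomputable def D2 (v : ℝ × ℝ → ℝ) (p : ℝ × ℝ) : ℝ := fderiv ℝ v p (0, 1)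

/-- Admissible functions on `Ω`: continuously differentiable in `Ω`, bounded and with bounded
first partial derivatives.  For bounded `Ω` these lie in `H¹(Ω)`, and for bounded Lipschitz `Ω`
they are dense in `H¹(Ω)`. -/
def Adm (Ω : Set (ℝ × ℝ)) (v : ℝ × ℝ → ℝ) : Prop :=
  ContDiffOn ℝ 1 v Ω ∧ ∃ M : ℝ, ∀ p ∈ Ω, |v p| ≤ M ∧ |D1 v p| ≤ M ∧ |D2 v p| ≤ M

/-- The Dirichlet form `∫_Ω ∇u · ∇v`. -/
noncomputable def dirichlet (Ω : Set (ℝ × ℝ)) (u v : ℝ × ℝ → ℝ) : ℝ :=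
  ∫ p in Ω, (D1 u p * D1 v p + D2 u p * D2 v p)

/-- The pairing `∫_Ω u v`. -/
noncomputable def l2 (Ω : Set (ℝ × ℝ)) (u v : ℝ × ℝ → ℝ) : ℝ := ∫ p in Ω, u p * v p

/-- `μ₁(Ω)`: the infimum of the Rayleigh quotient over admissible functions of mean zero. -/
noncomputable def mu1 (Ω : Set (ℝ × ℝ)) : ℝ :=
  sInf {t : ℝ | ∃ v, Adm Ω v ∧ ∫ p in Ω, v p = 0 ∧ 0 < l2 Ω v v ∧
    t = dirichlet Ω v v / l2 Ω v v}

/-- `u` is an admissible weak solution of `-Δu = μ₁(Ω) u` in `Ω`, `∂_ν u = 0` on `∂Ω`, of mean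
zero: `∫_Ω ∇u · ∇v = μ₁(Ω) ∫_Ω u v` for all admissible `v`. -/
def IsFirstEigen (Ω : Set (ℝ × ℝ)) (u : ℝ × ℝ → ℝ) : Prop :=
  Adm Ω u ∧ ∫ p in Ω, u p = 0 ∧ ∀ v, Adm Ω v → dirichlet Ω u v = mu1 Ω * l2 Ω u v

/-- The annular sector `{(r cos θ, r sin θ) : a < r < b, -α < θ < α}`. -/
def sector (a b α : ℝ) : Set (ℝ × ℝ) :=
  {p | ∃ r θ : ℝ, a < r ∧ r < b ∧ -α < θ ∧ θ < α ∧ p = (r * Real.cos θ, r * Real.sin θ)}

end Vale.Agent.Lib.P071
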