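import Vale.Agent.Lib.P071.Polar

/-!
Projection onto an angular mode and the energy identity.
-/

namespace Vale.Agent.Lib.P071

open MeasureTheory Set intervalIntegral Filter Topology

/-- the angular frequency `j π / (2 α)` -/
noncomputable def fr (α : ℝ) (j : ℕ) : ℝ := j * (Real.pi / (2 * α))

/-- derivative of the angular mode -/
noncomputable def md' (α : ℝ) (j : ℕ) (θ : ℝ) : ℝ := -(fr α j) * Real.sin (j * ph α θ)

lemma hasDerivAt_jph (α : ℝ) (j : ℕ) (θ : ℝ) :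
    HasDerivAt (fun θ => (j : ℝ) * ph α θ) (fr α j) θ := by
  unfold ph fr
  have h1 : HasDerivAt (fun θ : ℝ => θ + α) 1 θ := (hasDerivAt_id θ).add_const α
  have h2 := (h1.const_mul (Real.pi / (2 * α))).const_mul (j : ℝ)
  simpa using h2

lemma hasDerivAt_md (α : ℝ) (j : ℕ) (θ : ℝ) : HasDerivAt (md α j) (md' α j θ) θ := by
  have := (Real.hasDerivAt_cos _).comp θ (hasDerivAt_jph α j θ)
  have e : md' α j θ = -Real.sin (j * ph α θ) * fr α j := by unfold md'; ring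
  rw [e]
  exact this

lemma hasDerivAt_md' (α : ℝ) (j : ℕ) (θ : ℝ) :
    HasDerivAt (md' α j) (-(fr α j) ^ 2 * md α j θ) θ := by
  have := ((Real.hasDerivAt_sin _).comp θ (hasDerivAt_jph α j θ)).const_mul (-(fr α j))
  have e : -(fr α j) ^ 2 * md α j θ = -fr α j * (Real.cos (j * ph α θ) * fr α j) := by
    unfold md; ring
  rw [e]
  exact this

lemma continuous_md' (α : ℝ) (j : ℕ) : Continuous (md' α j) :=
  continuous_const.mul (Real.continuous_sin.comp (continuous_const.mul (continuous_ph α)))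

lemma fr_nonneg {α : ℝ} (hα : 0 < α) (j : ℕ) : 0 ≤ fr α j := by
  unfold fr
  have := Real.pi_pos
  positivity

lemma abs_md'_le {α : ℝ} (hα : 0 < α) (j : ℕ) (θ : ℝ) : |md' α j θ| ≤ fr α j := by
  unfold md'
  rw [abs_mul, abs_neg, abs_of_nonneg (fr_nonneg hα j)]
  have := Real.abs_sin_le_one (j * ph α θ)
  have h0 := fr_nonneg hα j
  nlinarith

lemma md'_left (α : ℝ) (j : ℕ) : md' α j (-α) = 0 := by
  unfold md' ph; simp

lemma md'_right {α : ℝ} (hα : 0 < α) (j : ℕ) : md' α j α = 0 := by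
  unfold md' ph
  have : (j : ℝ) * (Real.pi / (2 * α) * (α + α)) = j * Real.pi := by field_simp; ring
  rw [this, Real.sin_nat_mul_pi]; simp

lemma contDiff_md (α : ℝ) (j : ℕ) : ContDiff ℝ 1 (md α j) := by
  unfold md ph
  fun_prop

section gen

variable {a b α : ℝ}

lemma ii_slice_mul (hα : 0 < α) {F : ℝ × ℝ → ℝ} (hF : ContinuousOn F (Qo a b α)) {M : ℝ}
    (hM : ∀ p ∈ Qo a b α, |F p| ≤ M) {g : ℝ → ℝ} (hg : Continuous g) {G : ℝ}
    (hG : ∀ θ, |g θ| ≤ G) {r : ℝ} (hr : r ∈ Ioo a b) :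
    IntervalIntegrable (fun θ => F (r, θ) * g θ) volume (-α) α := by
  refine ii_of_bdd (M := M * G) (by linarith)
    ((slice_t hF hr).mul hg.continuousOn) fun θ hθ => ?_
  rw [abs_mul]
  have h1 := hM (r, θ) ⟨hr, hθ⟩
  exact mul_le_mul h1 (hG θ) (abs_nonneg _) (le_trans (abs_nonneg _) h1)

/-- integration by parts in the angular variable -/
lemma ibp_angular (hα : 0 < α) {U : ℝ × ℝ → ℝ} (hU : AdmP a b α U) (j : ℕ) {r : ℝ}
    (hr : r ∈ Ioo a b) :
    ∫ θ in (-α)..α, Dt U (r, θ) * md' α j θ = (fr α j) ^ 2 * coef α U j r := by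
  obtain ⟨M, hM⟩ := hU.2
  have hlt : -α < α := by linarith
  have hi1 := ii_slice_mul hα hU.continuousOn_Dt (fun p hp => (hM p hp).2.2) (continuous_md' α j)
    (abs_md'_le hα j) hr
  have hi2 := ii_slice hα hU.continuousOn (fun p hp => (hM p hp).1) j hr
  have hM0 : 0 ≤ M := le_trans (abs_nonneg _) (hM (r, 0) ⟨hr, by constructor <;> linarith⟩).1
  have hlim : ∀ (l : Filter ℝ) (x : ℝ), l ≤ 𝓝 x → Ioo (-α) α ∈ l → md' α j x = 0 →
      Tendsto (fun θ => U (r, θ) * md' α j θ) l (𝓝 0) := by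
    intro l x hl hmem hx
    have h1 : Tendsto (fun θ => M * |md' α j θ|) l (𝓝 0) := by
      have : Tendsto (fun θ => M * |md' α j θ|) (𝓝 x) (𝓝 (M * |md' α j x|)) :=
        ((continuous_const.mul (continuous_md' α j).abs).tendsto x)
      rw [hx, abs_zero, mul_zero] at this
      exact this.mono_left hl
    refine squeeze_zero_norm' ?_ h1
    filter_upwards [hmem] with θ hθ
    rw [Real.norm_eq_abs, abs_mul]
    exact mul_le_mul_of_nonneg_right (hM (r, θ) ⟨hr, hθ⟩).1 (abs_nonneg _)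
  have key := intervalIntegral.integral_eq_sub_of_hasDerivAt_of_tendsto (a := -α) (b := α)
    (f := fun θ => U (r, θ) * md' α j θ)
    (f' := fun θ => Dt U (r, θ) * md' α j θ + U (r, θ) * (-(fr α j) ^ 2 * md α j θ))
    (fa := 0) (fb := 0) hlt
    (fun θ hθ => (hU.hasDerivAt_t ⟨hr, hθ⟩).mul (hasDerivAt_md' α j θ))
    (by
      apply hi1.add
      have := hi2.const_mul (-(fr α j) ^ 2)
      refine this.congr ?_
      intro θ _
      show -(fr α j) ^ 2 * (U (r, θ) * md α j θ) = U (r, θ) * (-(fr α j) ^ 2 * md α j θ)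
      ring)
    (hlim _ _ nhdsWithin_le_nhds (Ioo_mem_nhdsGT hlt) (md'_left α j))
    (hlim _ _ nhdsWithin_le_nhds (Ioo_mem_nhdsLT hlt) (md'_right hα j))
  have e : ∀ θ, U (r, θ) * (-(fr α j) ^ 2 * md α j θ) = -(fr α j) ^ 2 * (U (r, θ) * md α j θ) :=
    fun θ => by ring
  simp only [e] at key
  rw [intervalIntegral.integral_add hi1 (hi2.const_mul _), intervalIntegral.integral_const_mul]
    at key
  unfold coef
  linarith

/-- the projection of `U` onto the `j`-th angular mode (up to normalisation) -/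
noncomputable def proj (α : ℝ) (U : ℝ × ℝ → ℝ) (j : ℕ) (p : ℝ × ℝ) : ℝ :=
  coef α U j p.1 * md α j p.2

lemma contDiffOn_proj (hα : 0 < α) {U : ℝ × ℝ → ℝ} (hU : AdmP a b α U) (j : ℕ) :
    ContDiffOn ℝ 1 (proj α U j) (Qo a b α) := by
  unfold proj
  apply ContDiffOn.mul
  · exact (contDiffOn_coef hα hU j).comp contDiff_fst.contDiffOn fun p hp => hp.1
  · exact ((contDiff_md α j).comp contDiff_snd).contDiffOn

lemma hasFDerivAt_of_contDiffOn {V : ℝ × ℝ → ℝ} (h : ContDiffOn ℝ 1 V (Qo a b α)) {p : ℝ × ℝ}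
    (hp : p ∈ Qo a b α) : HasFDerivAt V (fderiv ℝ V p) p :=
  ((h.contDiffAt ((isOpen_Qo a b α).mem_nhds hp)).differentiableAt (by norm_num)).hasFDerivAt

lemma Dr_eq_of_hasDerivAt {V : ℝ × ℝ → ℝ} (h : ContDiffOn ℝ 1 V (Qo a b α)) {r θ d : ℝ}
    (hp : (r, θ) ∈ Qo a b α) (hd : HasDerivAt (fun r' => V (r', θ)) d r) : Dr V (r, θ) = d := by
  have h1 := hasFDerivAt_of_contDiffOn h hp
  have h2 : HasDerivAt (fun r' : ℝ => (r', θ)) ((1 : ℝ), (0 : ℝ)) r :=
    (hasDerivAt_id r).prodMk (hasDerivAt_const r θ)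
  exact (h1.comp_hasDerivAt r h2).unique hd

lemma Dt_eq_of_hasDerivAt {V : ℝ × ℝ → ℝ} (h : ContDiffOn ℝ 1 V (Qo a b α)) {r θ d : ℝ}
    (hp : (r, θ) ∈ Qo a b α) (hd : HasDerivAt (fun θ' => V (r, θ')) d θ) : Dt V (r, θ) = d := by
  have h1 := hasFDerivAt_of_contDiffOn h hp
  have h2 : HasDerivAt (fun θ' : ℝ => (r, θ')) ((0 : ℝ), (1 : ℝ)) θ :=
    (hasDerivAt_const θ r).prodMk (hasDerivAt_id θ)
  exact (h1.comp_hasDerivAt θ h2).unique hd

lemma Dr_proj (hα : 0 < α) {U : ℝ × ℝ → ℝ} (hU : AdmP a b α U) (j : ℕ) {r θ : ℝ}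
    (hp : (r, θ) ∈ Qo a b α) : Dr (proj α U j) (r, θ) = coef' α U j r * md α j θ := by
  have h : HasDerivAt (fun r' => proj α U j (r', θ)) (coef' α U j r * md α j θ) r :=
    (hasDerivAt_coef hα hU j hp.1).mul_const (md α j θ)
  exact Dr_eq_of_hasDerivAt (contDiffOn_proj hα hU j) hp h

lemma Dt_proj (hα : 0 < α) {U : ℝ × ℝ → ℝ} (hU : AdmP a b α U) (j : ℕ) {r θ : ℝ}
    (hp : (r, θ) ∈ Qo a b α) : Dt (proj α U j) (r, θ) = coef α U j r * md' α j θ := by
  have h : HasDerivAt (fun θ' => proj α U j (r, θ')) (coef α U j r * md' α j θ) θ :=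
    (hasDerivAt_md α j θ).const_mul (coef α U j r)
  exact Dt_eq_of_hasDerivAt (contDiffOn_proj hα hU j) hp h

lemma admP_proj (hα : 0 < α) {U : ℝ × ℝ → ℝ} (hU : AdmP a b α U) (j : ℕ) :
    AdmP a b α (proj α U j) := by
  refine ⟨contDiffOn_proj hα hU j, ?_⟩
  obtain ⟨M, hM⟩ := hU.2
  refine ⟨2 * α * M * (1 + fr α j), ?_⟩
  rintro ⟨r, θ⟩ hp
  have h1 : |coef α U j r| ≤ 2 * α * M :=
    abs_slice_integral_le hα (fun p hp => (hM p hp).1) j hp.1
  have h2 : |coef' α U j r| ≤ 2 * α * M :=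
    abs_slice_integral_le hα (fun p hp => (hM p hp).2.1) j hp.1
  have h0 : 0 ≤ 2 * α * M := le_trans (abs_nonneg _) h1
  have hf := fr_nonneg hα j
  have hm := abs_md_le α j θ
  have hm' := abs_md'_le hα j θ
  rw [Dr_proj hα hU j hp, Dt_proj hα hU j hp]
  refine ⟨?_, ?_, ?_⟩
  · show |coef α U j r * md α j θ| ≤ _
    rw [abs_mul]
    calc |coef α U j r| * |md α j θ| ≤ 2 * α * M * 1 := mul_le_mul h1 hm (abs_nonneg _) h0
      _ ≤ 2 * α * M * (1 + fr α j) := mul_le_mul_of_nonneg_left (by linarith) h0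
  · rw [abs_mul]
    calc |coef' α U j r| * |md α j θ| ≤ 2 * α * M * 1 := mul_le_mul h2 hm (abs_nonneg _) h0
      _ ≤ 2 * α * M * (1 + fr α j) := mul_le_mul_of_nonneg_left (by linarith) h0
  · rw [abs_mul]
    calc |coef α U j r| * |md' α j θ| ≤ 2 * α * M * fr α j := mul_le_mul h1 hm' (abs_nonneg _) h0
      _ ≤ 2 * α * M * (1 + fr α j) := mul_le_mul_of_nonneg_left (by linarith) h0

/-- the Dirichlet form in polar coordinates -/
noncomputable def formP (a b α : ℝ) (U V : ℝ × ℝ → ℝ) : ℝ :=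
  ∫ r in a..b, ∫ θ in (-α)..α,
    (Dr U (r, θ) * Dr V (r, θ) + Dt U (r, θ) * Dt V (r, θ) / r ^ 2) * r

/-- the `L²` pairing in polar coordinates -/
noncomputable def pairP (a b α : ℝ) (U V : ℝ × ℝ → ℝ) : ℝ :=
  ∫ r in a..b, ∫ θ in (-α)..α, U (r, θ) * V (r, θ) * r

lemma formP_proj (ha : 0 < a) (hab : a < b) (hα : 0 < α) {U : ℝ × ℝ → ℝ} (hU : AdmP a b α U)
    (j : ℕ) : formP a b α U (proj α U j) =
      ∫ r in a..b, (r * coef' α U j r ^ 2 + (fr α j) ^ 2 * coef α U j r ^ 2 / r) := by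
  obtain ⟨M, hM⟩ := hU.2
  unfold formP
  apply intervalIntegral.integral_congr_Ioo_of_le hab.le
  intro r hr
  have hr0 : 0 < r := lt_trans ha hr.1
  have hi1 := ii_slice hα hU.continuousOn_Dr (fun p hp => (hM p hp).2.1) j hr
  have hi2 := ii_slice_mul hα hU.continuousOn_Dt (fun p hp => (hM p hp).2.2) (continuous_md' α j)
    (abs_md'_le hα j) hr
  have e1 : ∫ θ in (-α)..α, (Dr U (r, θ) * Dr (proj α U j) (r, θ) +
      Dt U (r, θ) * Dt (proj α U j) (r, θ) / r ^ 2) * r =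
      ∫ θ in (-α)..α, ((r * coef' α U j r) * (Dr U (r, θ) * md α j θ) +
        (coef α U j r / r) * (Dt U (r, θ) * md' α j θ)) := by
    apply intervalIntegral.integral_congr_Ioo_of_le (by linarith)
    intro θ hθ
    show (Dr U (r, θ) * Dr (proj α U j) (r, θ) +
      Dt U (r, θ) * Dt (proj α U j) (r, θ) / r ^ 2) * r = _
    rw [Dr_proj hα hU j ⟨hr, hθ⟩, Dt_proj hα hU j ⟨hr, hθ⟩]
    field_simp
  show (∫ θ in (-α)..α, (Dr U (r, θ) * Dr (proj α U j) (r, θ) +
      Dt U (r, θ) * Dt (proj α U j) (r, θ) / r ^ 2) * r) = _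
  rw [e1, intervalIntegral.integral_add (hi1.const_mul _) (hi2.const_mul _),
    intervalIntegral.integral_const_mul, intervalIntegral.integral_const_mul,
    ibp_angular hα hU j hr]
  show r * coef' α U j r * coef' α U j r + _ = _
  field_simp

lemma pairP_proj (hab : a < b) {U : ℝ × ℝ → ℝ} (j : ℕ) :
    pairP a b α U (proj α U j) = ∫ r in a..b, r * coef α U j r ^ 2 := by
  unfold pairP
  apply intervalIntegral.integral_congr_Ioo_of_le hab.le
  intro r _
  have e1 : ∀ θ, U (r, θ) * proj α U j (r, θ) * r =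
      (r * coef α U j r) * (U (r, θ) * md α j θ) := by
    intro θ
    unfold proj
    ring
  show (∫ θ in (-α)..α, U (r, θ) * proj α U j (r, θ) * r) = _
  simp only [e1]
  rw [intervalIntegral.integral_const_mul]
  show r * coef α U j r * coef α U j r = _
  ring

end gen

end Vale.Agent.Lib.P071
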