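import Vale.Agent.Lib.P071.Bound

/-!
Annular sectors: the hot spots property.
-/

namespace Vale.Agent.Lib.P071

open MeasureTheory Set intervalIntegral Filter Topology

variable {a b α : ℝ}

lemma md_one_left (α : ℝ) : md α 1 (-α) = 1 := by
  unfold md ph; simp

lemma md_one_right (hα : 0 < α) : md α 1 α = -1 := by
  unfold md ph
  have : ((1 : ℕ) : ℝ) * (Real.pi / (2 * α) * (α + α)) = Real.pi := by
    push_cast; field_simp; ring
  rw [this, Real.cos_pi]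

lemma ph_mem_Ioo (hα : 0 < α) {θ : ℝ} (hθ : θ ∈ Ioo (-α) α) : ph α θ ∈ Ioo 0 Real.pi := by
  unfold ph
  have hpi := Real.pi_pos
  constructor
  · have : 0 < θ + α := by linarith [hθ.1]
    positivity
  · have h1 : θ + α < 2 * α := by linarith [hθ.2]
    calc Real.pi / (2 * α) * (θ + α) < Real.pi / (2 * α) * (2 * α) :=
          mul_lt_mul_of_pos_left h1 (by positivity)
      _ = Real.pi := by field_simp

lemma md_one_lt (hα : 0 < α) {θ : ℝ} (hθ : θ ∈ Ioo (-α) α) : md α 1 θ < 1 := by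
  have h := ph_mem_Ioo hα hθ
  unfold md
  rw [Nat.cast_one, one_mul, ← Real.cos_zero]
  exact Real.strictAntiOn_cos ⟨le_rfl, Real.pi_pos.le⟩ ⟨h.1.le, h.2.le⟩ h.1

lemma neg_one_lt_md_one (hα : 0 < α) {θ : ℝ} (hθ : θ ∈ Ioo (-α) α) : -1 < md α 1 θ := by
  have h := ph_mem_Ioo hα hθ
  unfold md
  rw [Nat.cast_one, one_mul, ← Real.cos_pi]
  exact Real.strictAntiOn_cos ⟨h.1.le, h.2.le⟩ ⟨Real.pi_pos.le, le_rfl⟩ h.2

lemma Ph_mem_closure (hab : a < b) (hα : 0 < α) {q : ℝ × ℝ} (hq : q ∈ Ioo a b ×ˢ Icc (-α) α) :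
    polarCoord.symm q ∈ closure (sector a b α) := by
  rw [sector_eq]
  apply image_closure_subset_closure_image continuous_polarCoord_symm
  apply mem_image_of_mem
  unfold Qo
  rw [closure_prod_eq, closure_Ioo hab.ne, closure_Ioo (by linarith)]
  exact ⟨Ioo_subset_Icc_self hq.1, hq.2⟩

lemma Ph_mem_frontier (ha : 0 < a) (hab : a < b) (h0 : 0 < α) (hα : α < Real.pi) {r θ : ℝ}
    (hr : r ∈ Ioo a b) (hθ : θ = α ∨ θ = -α) :
    polarCoord.symm (r, θ) ∈ frontier (sector a b α) := by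
  rw [frontier, (isOpen_sector ha hα.le).interior_eq]
  refine ⟨Ph_mem_closure hab h0 ⟨hr, ?_⟩, ?_⟩
  · rcases hθ with rfl | rfl
    · exact ⟨by linarith, le_rfl⟩
    · exact ⟨le_rfl, by linarith⟩
  · intro h
    have ht : (r, θ) ∈ polarCoord.target := by
      rw [polarCoord_target]
      refine ⟨lt_trans ha hr.1, ?_⟩
      rcases hθ with rfl | rfl
      · exact ⟨by linarith, hα⟩
      · exact ⟨by linarith, by linarith⟩
    have := ((mem_sector_iff ha hα.le ht).1 h).2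
    rcases hθ with rfl | rfl
    · exact lt_irrefl _ this.2
    · exact lt_irrefl _ this.1

/-- structure of first eigenfunctions on thin annular sectors -/
theorem sector_structure (ha : 0 < a) (hab : a < b) (hb : b < 2 * a) (h0 : 0 < α)
    (hα : α < Real.pi) (hwid : b - a ≤ a * α / 2) {u : ℝ × ℝ → ℝ}
    (hu : IsFirstEigen (sector a b α) u) (hc : ContinuousOn u (closure (sector a b α))) :
    ∃ X : ℝ → ℝ, ∀ r ∈ Ioo a b, ∀ θ ∈ Icc (-α) α,
      u (polarCoord.symm (r, θ)) = X r * md α 1 θ := by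
  obtain ⟨hadm, hmean, hw⟩ := hu
  have hU := admP_of_adm ha hα.le hadm
  have hcont : ContinuousOn (u ∘ polarCoord.symm) (Ioo a b ×ˢ Icc (-α) α) :=
    hc.comp continuous_polarCoord_symm.continuousOn fun q hq => Ph_mem_closure hab h0 hq
  rw [mean_eq ha hab.le h0.le hα.le hadm] at hmean
  have h := polar_structure ha hab hb h0 hwid hU hcont (mu1_le ha hab h0 hα.le)
    (weak_polar ha hab.le h0.le hα.le hadm hw) hmean
  exact ⟨fun r => coef α (u ∘ polarCoord.symm) 1 r / α, h⟩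

/-- the hot spots property on thin annular sectors -/
theorem sector_hot_spots (ha : 0 < a) (hab : a < b) (hb : b < 2 * a) (h0 : 0 < α)
    (hα : α < Real.pi) (hwid : b - a ≤ a * α / 2) {u : ℝ × ℝ → ℝ}
    (hu : IsFirstEigen (sector a b α) u) (hc : ContinuousOn u (closure (sector a b α)))
    (hne : ∃ x ∈ sector a b α, u x ≠ 0) :
    ∀ x ∈ sector a b α, (∃ p ∈ frontier (sector a b α), u p < u x) ∧
      (∃ q ∈ frontier (sector a b α), u x < u q) := by
  obtain ⟨X, hX⟩ := sector_structure ha hab hb h0 hα hwid hu hc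
  have hle : -α ≤ α := by linarith
  have hL : ∀ r ∈ Ioo a b, u (polarCoord.symm (r, -α)) = X r := by
    intro r hr
    rw [hX r hr (-α) ⟨le_rfl, hle⟩, md_one_left, mul_one]
  have hR : ∀ r ∈ Ioo a b, u (polarCoord.symm (r, α)) = -X r := by
    intro r hr
    rw [hX r hr α ⟨hle, le_rfl⟩, md_one_right h0]; ring
  have hfL : ∀ r ∈ Ioo a b, polarCoord.symm (r, -α) ∈ frontier (sector a b α) :=
    fun r hr => Ph_mem_frontier ha hab h0 hα hr (Or.inr rfl)
  have hfR : ∀ r ∈ Ioo a b, polarCoord.symm (r, α) ∈ frontier (sector a b α) :=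
    fun r hr => Ph_mem_frontier ha hab h0 hα hr (Or.inl rfl)
  -- a radius where the profile does not vanish
  obtain ⟨r₀, hr₀, hX₀⟩ : ∃ r₀ ∈ Ioo a b, X r₀ ≠ 0 := by
    obtain ⟨x, hx, hux⟩ := hne
    obtain ⟨r, θ, h1, h2, h3, h4, rfl⟩ := hx
    refine ⟨r, ⟨h1, h2⟩, fun h => hux ?_⟩
    have := hX r ⟨h1, h2⟩ θ ⟨h3.le, h4.le⟩
    rw [Ph_apply, h, zero_mul] at this
    exact this
  intro x hx
  obtain ⟨r, θ, h1, h2, h3, h4, rfl⟩ := hx
  have hr : r ∈ Ioo a b := ⟨h1, h2⟩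
  have hθ : θ ∈ Ioo (-α) α := ⟨h3, h4⟩
  have hval := hX r hr θ ⟨h3.le, h4.le⟩
  rw [Ph_apply] at hval
  rw [hval]
  have m1 := md_one_lt h0 hθ
  have m2 := neg_one_lt_md_one h0 hθ
  rcases lt_trichotomy (X r) 0 with hneg | hzero | hpos
  · refine ⟨⟨_, hfL r hr, ?_⟩, ⟨_, hfR r hr, ?_⟩⟩
    · rw [hL r hr]; nlinarith
    · rw [hR r hr]; nlinarith
  · rw [hzero, zero_mul]
    rcases lt_or_gt_of_ne hX₀ with hn | hp
    · refine ⟨⟨_, hfL r₀ hr₀, ?_⟩, ⟨_, hfR r₀ hr₀, ?_⟩⟩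
      · rw [hL r₀ hr₀]; exact hn
      · rw [hR r₀ hr₀]; linarith
    · refine ⟨⟨_, hfR r₀ hr₀, ?_⟩, ⟨_, hfL r₀ hr₀, ?_⟩⟩
      · rw [hR r₀ hr₀]; linarith
      · rw [hL r₀ hr₀]; exact hp
  · refine ⟨⟨_, hfR r hr, ?_⟩, ⟨_, hfL r hr, ?_⟩⟩
    · rw [hR r hr]; nlinarith
    · rw [hL r hr]; nlinarith

end Vale.Agent.Lib.P071
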