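import Vale.Agent.Lib.P071.Transfer

/-!
Annular sectors: the Dirichlet form and the pairing in polar coordinates.
-/

namespace Vale.Agent.Lib.P071

open MeasureTheory Set intervalIntegral Filter Topology

variable {a b α : ℝ}

lemma abs_mul_le_of {x y X Y : ℝ} (hx : |x| ≤ X) (hy : |y| ≤ Y) : |x * y| ≤ X * Y := by
  rw [abs_mul]
  exact mul_le_mul hx hy (abs_nonneg _) (le_trans (abs_nonneg _) hx)

lemma dirichlet_eq (ha : 0 < a) (hab : a ≤ b) (h0 : 0 ≤ α) (hα : α ≤ Real.pi)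
    {u v : ℝ × ℝ → ℝ} (hu : Adm (sector a b α) u) (hv : Adm (sector a b α) v) :
    dirichlet (sector a b α) u v = formP a b α (u ∘ polarCoord.symm) (v ∘ polarCoord.symm) := by
  obtain ⟨M, hM⟩ := hu.2
  obtain ⟨N, hN⟩ := hv.2
  unfold dirichlet formP
  rw [integral_sector_iter (g := fun p => D1 u p * D1 v p + D2 u p * D2 v p) ha hab h0 hα
    (((hu.continuousOn_D1 ha hα).mul (hv.continuousOn_D1 ha hα)).add
      ((hu.continuousOn_D2 ha hα).mul (hv.continuousOn_D2 ha hα))) (M := M * N + M * N)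
    (fun p hp => (abs_add_le _ _).trans (add_le_add
      (abs_mul_le_of (hM p hp).2.1 (hN p hp).2.1) (abs_mul_le_of (hM p hp).2.2 (hN p hp).2.2)))]
  apply intervalIntegral.integral_congr_Ioo_of_le hab
  intro r hr
  apply intervalIntegral.integral_congr_Ioo_of_le (by linarith)
  intro θ hθ
  beta_reduce
  have hq : (r, θ) ∈ Qo a b α := ⟨hr, hθ⟩
  have hx := Ph_mem_sector hq
  rw [Dr_comp (hu.differentiableAt ha hα hx), Dr_comp (hv.differentiableAt ha hα hx),
    Dt_comp (hu.differentiableAt ha hα hx), Dt_comp (hv.differentiableAt ha hα hx)]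
  have hr0 : r ≠ 0 := (lt_trans ha hr.1).ne'
  have hcs := Real.cos_sq_add_sin_sq θ
  simp only
  set A := D1 u (polarCoord.symm (r, θ))
  set B := D2 u (polarCoord.symm (r, θ))
  set A' := D1 v (polarCoord.symm (r, θ))
  set B' := D2 v (polarCoord.symm (r, θ))
  field_simp
  linear_combination (-(A * A' + B * B')) * hcs

lemma l2_eq (ha : 0 < a) (hab : a ≤ b) (h0 : 0 ≤ α) (hα : α ≤ Real.pi)
    {u v : ℝ × ℝ → ℝ} (hu : Adm (sector a b α) u) (hv : Adm (sector a b α) v) :
    l2 (sector a b α) u v = pairP a b α (u ∘ polarCoord.symm) (v ∘ polarCoord.symm) := by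
  obtain ⟨M, hM⟩ := hu.2
  obtain ⟨N, hN⟩ := hv.2
  unfold l2 pairP
  rw [integral_sector_iter (g := fun p => u p * v p) ha hab h0 hα
    (hu.1.continuousOn.mul hv.1.continuousOn) (M := M * N)
    (fun p hp => abs_mul_le_of (hM p hp).1 (hN p hp).1)]
  apply intervalIntegral.integral_congr_Ioo_of_le hab
  intro r _
  apply intervalIntegral.integral_congr_Ioo_of_le (by linarith)
  intro θ _
  simp only [Function.comp]
  ring

lemma mean_eq (ha : 0 < a) (hab : a ≤ b) (h0 : 0 ≤ α) (hα : α ≤ Real.pi)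
    {u : ℝ × ℝ → ℝ} (hu : Adm (sector a b α) u) :
    ∫ p in sector a b α, u p = ∫ r in a..b, r * coef α (u ∘ polarCoord.symm) 0 r := by
  obtain ⟨M, hM⟩ := hu.2
  rw [integral_sector_iter ha hab h0 hα hu.1.continuousOn (M := M) (fun p hp => (hM p hp).1)]
  apply intervalIntegral.integral_congr_Ioo_of_le hab
  intro r _
  unfold coef
  beta_reduce
  rw [intervalIntegral.integral_const_mul]
  simp only [md_zero, mul_one, Function.comp]

lemma formP_congr (hab : a ≤ b) (h0 : 0 ≤ α) (U : ℝ × ℝ → ℝ) {V W : ℝ × ℝ → ℝ}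
    (h : EqOn V W (Qo a b α)) : formP a b α U V = formP a b α U W := by
  unfold formP
  apply intervalIntegral.integral_congr_Ioo_of_le hab
  intro r hr
  apply intervalIntegral.integral_congr_Ioo_of_le (by linarith)
  intro θ hθ
  have hq : (r, θ) ∈ Qo a b α := ⟨hr, hθ⟩
  beta_reduce
  rw [Dr_eq_of_eqOn h hq, Dt_eq_of_eqOn h hq]

lemma pairP_congr (hab : a ≤ b) (h0 : 0 ≤ α) (U : ℝ × ℝ → ℝ) {V W : ℝ × ℝ → ℝ}
    (h : EqOn V W (Qo a b α)) : pairP a b α U V = pairP a b α U W := by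
  unfold pairP
  apply intervalIntegral.integral_congr_Ioo_of_le hab
  intro r hr
  apply intervalIntegral.integral_congr_Ioo_of_le (by linarith)
  intro θ hθ
  have hq : (r, θ) ∈ Qo a b α := ⟨hr, hθ⟩
  beta_reduce
  rw [h hq]

/-- the weak form passes to polar coordinates -/
lemma weak_polar (ha : 0 < a) (hab : a ≤ b) (h0 : 0 ≤ α) (hα : α ≤ Real.pi)
    {u : ℝ × ℝ → ℝ} (hu : Adm (sector a b α) u) {μ : ℝ}
    (hw : ∀ v, Adm (sector a b α) v → dirichlet (sector a b α) u v = μ * l2 (sector a b α) u v)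
    (V : ℝ × ℝ → ℝ) (hV : AdmP a b α V) :
    formP a b α (u ∘ polarCoord.symm) V = μ * pairP a b α (u ∘ polarCoord.symm) V := by
  have hv := adm_of_admP ha hα hV
  have h1 := hw _ hv
  rw [dirichlet_eq ha hab h0 hα hu hv, l2_eq ha hab h0 hα hu hv] at h1
  have heq : EqOn ((V ∘ polarCoord) ∘ polarCoord.symm) V (Qo a b α) :=
    fun q hq => push_comp_eq ha hα V hq
  rwa [formP_congr hab h0 _ heq, pairP_congr hab h0 _ heq] at h1

end Vale.Agent.Lib.P071
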