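import Mathlib

/-!
One-dimensional helper lemmas for P071.
-/

namespace Vale.Agent.Lib.P071

open MeasureTheory Set intervalIntegral Filter Topology

lemma ii_of_bdd {f : ℝ → ℝ} {c d M : ℝ} (hcd : c ≤ d) (hf : ContinuousOn f (Ioo c d))
    (hM : ∀ x ∈ Ioo c d, |f x| ≤ M) : IntervalIntegrable f volume c d := by
  rw [intervalIntegrable_iff_integrableOn_Ioo_of_le hcd]
  refine IntegrableOn.of_bound measure_Ioo_lt_top
    (hf.aestronglyMeasurable measurableSet_Ioo) M ?_
  rw [ae_restrict_iff' measurableSet_Ioo]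
  exact ae_of_all _ fun x hx => by simpa using hM x hx

lemma zero_of_integral_zero {f : ℝ → ℝ} {c d : ℝ} (hcd : c ≤ d) (hf : ContinuousOn f (Ioo c d))
    (h0 : ∀ x ∈ Ioo c d, 0 ≤ f x) (hi : IntervalIntegrable f volume c d)
    (h : ∫ x in c..d, f x = 0) : ∀ x ∈ Ioo c d, f x = 0 := by
  rw [intervalIntegral.integral_of_le hcd, integral_Ioc_eq_integral_Ioo] at h
  rw [intervalIntegrable_iff_integrableOn_Ioo_of_le hcd] at hi
  have hnn : 0 ≤ᵐ[volume.restrict (Ioo c d)] f := by
    rw [EventuallyLE, ae_restrict_iff' measurableSet_Ioo]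
    exact ae_of_all _ fun x hx => h0 x hx
  have := (integral_eq_zero_iff_of_nonneg_ae hnn hi).1 h
  exact Measure.eqOn_open_of_ae_eq this isOpen_Ioo hf continuousOn_const

/-- Cauchy-Schwarz on an interval. -/
lemma sq_integral_le {g : ℝ → ℝ} {x y : ℝ} (hxy : x ≤ y) (hg : ContinuousOn g (Icc x y)) :
    (∫ t in x..y, g t) ^ 2 ≤ (y - x) * ∫ t in x..y, g t ^ 2 := by
  rcases hxy.eq_or_lt with rfl | hlt
  · simp
  have hl : 0 < y - x := by linarith
  have hgi : IntervalIntegrable g volume x y := by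
    apply ContinuousOn.intervalIntegrable; rwa [uIcc_of_le hxy]
  have hg2 : IntervalIntegrable (fun t => g t ^ 2) volume x y := by
    apply ContinuousOn.intervalIntegrable; rw [uIcc_of_le hxy]; exact hg.pow 2
  set I := ∫ t in x..y, g t with hI
  set s := I / (y - x) with hs
  have h0 : 0 ≤ ∫ t in x..y, (g t - s) ^ 2 :=
    intervalIntegral.integral_nonneg hxy fun t _ => sq_nonneg _
  have h1 : ∫ t in x..y, (g t - s) ^ 2 = (∫ t in x..y, g t ^ 2) - 2 * s * I + s ^ 2 * (y - x) := by
    have e : ∀ t, (g t - s) ^ 2 = g t ^ 2 - 2 * s * g t + s ^ 2 := fun t => by ring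
    simp only [e]
    rw [intervalIntegral.integral_add (hg2.sub (hgi.const_mul _)) intervalIntegrable_const,
      intervalIntegral.integral_sub hg2 (hgi.const_mul _), intervalIntegral.integral_const_mul,
      intervalIntegral.integral_const]
    simp only [smul_eq_mul]
    ring
  rw [h1] at h0
  have h2 : s * (y - x) = I := by rw [hs]; field_simp
  nlinarith

/-- A continuous function on an open interval with vanishing weighted mean has a zero. -/
lemma exists_zero_of_mean_zero {A : ℝ → ℝ} {a b M : ℝ} (ha : 0 < a) (hab : a < b)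
    (hc : ContinuousOn A (Ioo a b)) (hA : ∀ x ∈ Ioo a b, |A x| ≤ M)
    (hmean : ∫ x in a..b, x * A x = 0) : ∃ x₀ ∈ Ioo a b, A x₀ = 0 := by
  by_contra hcon
  push Not at hcon
  have hxA : ContinuousOn (fun x => x * A x) (Ioo a b) := continuousOn_id.mul hc
  have hM0 : 0 ≤ M := le_trans (abs_nonneg _) (hA ((a + b) / 2) ⟨by linarith, by linarith⟩)
  have hint : IntervalIntegrable (fun x => x * A x) volume a b := by
    refine ii_of_bdd (M := b * M) hab.le hxA fun x hx => ?_
    rw [abs_mul, abs_of_pos (lt_trans ha hx.1)]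
    exact mul_le_mul hx.2.le (hA x hx) (abs_nonneg _) (by linarith)
  set c := (a + b) / 2 with hcdef
  have hcm : c ∈ Ioo a b := ⟨by rw [hcdef]; linarith, by rw [hcdef]; linarith⟩
  have hsign : ∀ x ∈ Ioo a b, 0 < A c * A x := by
    intro x hx
    by_contra hneg
    rw [not_lt] at hneg
    have hsub : uIcc c x ⊆ Ioo a b := by
      intro y hy
      rw [mem_uIcc] at hy
      rcases hy with h | h
      · exact ⟨lt_of_lt_of_le hcm.1 h.1, lt_of_le_of_lt h.2 hx.2⟩
      · exact ⟨lt_of_lt_of_le hx.1 h.1, lt_of_le_of_lt h.2 hcm.2⟩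
    have hivt := intermediate_value_uIcc (hc.mono hsub)
    have h0 : (0 : ℝ) ∈ uIcc (A c) (A x) := by
      rw [mem_uIcc]
      rcases le_total (A c) 0 with h1 | h1
      · left
        refine ⟨h1, ?_⟩
        by_contra h2
        rw [not_le] at h2
        have h3 : A c < 0 := lt_of_le_of_ne h1 (hcon c hcm)
        nlinarith
      · right
        refine ⟨?_, h1⟩
        by_contra h2
        rw [not_le] at h2
        have h3 : 0 < A c := lt_of_le_of_ne h1 (hcon c hcm).symm
        nlinarith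
    obtain ⟨y, hy, hy0⟩ := hivt h0
    exact hcon y (hsub hy) hy0
  rcases lt_or_gt_of_ne (hcon c hcm) with hneg | hpos
  · have : 0 < ∫ x in a..b, -(x * A x) := by
      apply intervalIntegral_pos_of_pos_on hint.neg _ hab
      intro x hx
      have h1 := hsign x hx
      have h2 : A x < 0 := by
        by_contra h3
        rw [not_lt] at h3
        nlinarith
      have := lt_trans ha hx.1
      show 0 < -(x * A x)
      nlinarith
    rw [intervalIntegral.integral_neg, hmean] at this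
    simp at this
  · have : 0 < ∫ x in a..b, x * A x := by
      apply intervalIntegral_pos_of_pos_on hint _ hab
      intro x hx
      have h1 := hsign x hx
      have h2 : 0 < A x := by
        by_contra h3
        rw [not_lt] at h3
        nlinarith
      exact mul_pos (lt_trans ha hx.1) h2
    rw [hmean] at this
    exact lt_irrefl _ this

/-- pointwise bound by the Dirichlet integral, from a zero -/
lemma sq_le_of_zero {A A' : ℝ → ℝ} {a b M x₀ x : ℝ} (hab : a < b)
    (hd : ∀ x ∈ Ioo a b, HasDerivAt A (A' x) x) (hc : ContinuousOn A' (Ioo a b))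
    (hM : ∀ x ∈ Ioo a b, |A' x| ≤ M) (hx₀ : x₀ ∈ Ioo a b) (h0 : A x₀ = 0) (hx : x ∈ Ioo a b) :
    A x ^ 2 ≤ (b - a) * ∫ t in a..b, A' t ^ 2 := by
  have hM0 : 0 ≤ M := le_trans (abs_nonneg _) (hM x hx)
  have hsq : IntervalIntegrable (fun t => A' t ^ 2) volume a b := by
    refine ii_of_bdd (M := M ^ 2) hab.le (hc.pow 2) fun t ht => ?_
    rw [abs_pow]
    exact pow_le_pow_left₀ (abs_nonneg _) (hM t ht) 2
  have hI0 : 0 ≤ ∫ t in a..b, A' t ^ 2 :=
    intervalIntegral.integral_nonneg hab.le fun t _ => sq_nonneg _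
  have key : ∀ lo hi : ℝ, lo ∈ Ioo a b → hi ∈ Ioo a b → lo ≤ hi →
      (A hi - A lo) ^ 2 ≤ (b - a) * ∫ t in a..b, A' t ^ 2 := by
    intro lo hi hlo hhi hle
    have hsub : Icc lo hi ⊆ Ioo a b := fun y hy =>
      ⟨lt_of_lt_of_le hlo.1 hy.1, lt_of_le_of_lt hy.2 hhi.2⟩
    have hftc : ∫ t in lo..hi, A' t = A hi - A lo := by
      apply intervalIntegral.integral_eq_sub_of_hasDerivAt
      · intro y hy
        rw [uIcc_of_le hle] at hy
        exact hd y (hsub hy)
      · apply ContinuousOn.intervalIntegrable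
        rw [uIcc_of_le hle]
        exact hc.mono hsub
    rw [← hftc]
    have h1 := sq_integral_le hle (hc.mono hsub)
    have h2 : ∫ t in lo..hi, A' t ^ 2 ≤ ∫ t in a..b, A' t ^ 2 :=
      intervalIntegral.integral_mono_interval hlo.1.le hle hhi.2.le
        (ae_of_all _ fun t => sq_nonneg _) hsq
    have h3 : 0 ≤ ∫ t in lo..hi, A' t ^ 2 :=
      intervalIntegral.integral_nonneg hle fun t _ => sq_nonneg _
    have h4 : hi - lo ≤ b - a := by linarith [hlo.1, hhi.2]
    have h5 : 0 ≤ hi - lo := by linarith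
    calc (∫ t in lo..hi, A' t) ^ 2 ≤ (hi - lo) * ∫ t in lo..hi, A' t ^ 2 := h1
      _ ≤ (b - a) * ∫ t in a..b, A' t ^ 2 := mul_le_mul h4 h2 h3 (by linarith)
  rcases le_total x₀ x with h | h
  · have := key x₀ x hx₀ hx h
    rwa [h0, sub_zero] at this
  · have := key x x₀ hx hx₀ h
    rw [h0, zero_sub, neg_sq] at this
    exact this

/-- A weighted Poincare inequality on `(a, b)` with weight `x`. -/
lemma radial_poincare {A A' : ℝ → ℝ} {a b M : ℝ} (ha : 0 < a) (hab : a < b)
    (hd : ∀ x ∈ Ioo a b, HasDerivAt A (A' x) x) (hc : ContinuousOn A' (Ioo a b))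
    (hM : ∀ x ∈ Ioo a b, |A' x| ≤ M) (hA : ∀ x ∈ Ioo a b, |A x| ≤ M)
    (hmean : ∫ x in a..b, x * A x = 0) :
    ∫ x in a..b, x * A x ^ 2 ≤
      (b - a) * (b ^ 2 - a ^ 2) / (2 * a) * ∫ x in a..b, x * A' x ^ 2 := by
  have hcA : ContinuousOn A (Ioo a b) := fun x hx => (hd x hx).continuousAt.continuousWithinAt
  obtain ⟨x₀, hx₀, h0⟩ := exists_zero_of_mean_zero ha hab hcA hA hmean
  have hM0 : 0 ≤ M := le_trans (abs_nonneg _) (hM x₀ hx₀)
  have hb : 0 < b := lt_trans ha hab
  set I := ∫ t in a..b, A' t ^ 2 with hI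
  have hsq : IntervalIntegrable (fun t => A' t ^ 2) volume a b := by
    refine ii_of_bdd (M := M ^ 2) hab.le (hc.pow 2) fun t ht => ?_
    rw [abs_pow]
    exact pow_le_pow_left₀ (abs_nonneg _) (hM t ht) 2
  have hxsq : IntervalIntegrable (fun t => t * A' t ^ 2) volume a b := by
    refine ii_of_bdd (M := b * M ^ 2) hab.le (continuousOn_id.mul (hc.pow 2)) fun t ht => ?_
    rw [abs_mul, abs_pow, abs_of_pos (lt_trans ha ht.1)]
    exact mul_le_mul ht.2.le (pow_le_pow_left₀ (abs_nonneg _) (hM t ht) 2) (by positivity) hb.le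
  have hxA : IntervalIntegrable (fun t => t * A t ^ 2) volume a b := by
    refine ii_of_bdd (M := b * M ^ 2) hab.le (continuousOn_id.mul (hcA.pow 2)) fun t ht => ?_
    rw [abs_mul, abs_pow, abs_of_pos (lt_trans ha ht.1)]
    exact mul_le_mul ht.2.le (pow_le_pow_left₀ (abs_nonneg _) (hA t ht) 2) (by positivity) hb.le
  have h1 : ∫ x in a..b, x * A x ^ 2 ≤ ∫ x in a..b, x * ((b - a) * I) := by
    apply intervalIntegral.integral_mono_on_of_le_Ioo hab.le hxA
      (intervalIntegral.intervalIntegrable_id.mul_const _)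
    intro x hx
    exact mul_le_mul_of_nonneg_left (sq_le_of_zero hab hd hc hM hx₀ h0 hx) (lt_trans ha hx.1).le
  have h2 : ∫ x in a..b, x * ((b - a) * I) = (b ^ 2 - a ^ 2) / 2 * ((b - a) * I) := by
    rw [intervalIntegral.integral_mul_const, integral_id]
  have h3 : I ≤ (1 / a) * ∫ x in a..b, x * A' x ^ 2 := by
    rw [← intervalIntegral.integral_const_mul]
    apply intervalIntegral.integral_mono_on_of_le_Ioo hab.le hsq (hxsq.const_mul _)
    intro x hx
    have : 1 ≤ 1 / a * x := by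
      rw [one_div, inv_mul_eq_div, le_div_iff₀ ha]; linarith [hx.1]
    nlinarith [sq_nonneg (A' x)]
  have h4 : 0 ≤ (b ^ 2 - a ^ 2) / 2 * (b - a) := by
    have : 0 ≤ b ^ 2 - a ^ 2 := by nlinarith
    have : 0 ≤ b - a := by linarith
    positivity
  calc ∫ x in a..b, x * A x ^ 2 ≤ (b ^ 2 - a ^ 2) / 2 * ((b - a) * I) := by rw [← h2]; exact h1
    _ = (b ^ 2 - a ^ 2) / 2 * (b - a) * I := by ring
    _ ≤ (b ^ 2 - a ^ 2) / 2 * (b - a) * ((1 / a) * ∫ x in a..b, x * A' x ^ 2) :=
        mul_le_mul_of_nonneg_left h3 h4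
    _ = (b - a) * (b ^ 2 - a ^ 2) / (2 * a) * ∫ x in a..b, x * A' x ^ 2 := by
        field_simp

end Vale.Agent.Lib.P071
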