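import Vale.Agent.Lib.P071.Cosines

/-!
The Neumann problem on an annular sector in polar coordinates: basic calculus.
-/

namespace Vale.Agent.Lib.P071

open MeasureTheory Set intervalIntegral Filter Topology

/-- the open polar rectangle -/
def Qo (a b α : ℝ) : Set (ℝ × ℝ) := Ioo a b ×ˢ Ioo (-α) α

lemma isOpen_Qo (a b α : ℝ) : IsOpen (Qo a b α) := isOpen_Ioo.prod isOpen_Ioo

/-- derivative in the first variable -/
noncomputable def Dr (V : ℝ × ℝ → ℝ) (p : ℝ × ℝ) : ℝ := fderiv ℝ V p (1, 0)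

/-- derivative in the second variable -/
noncomputable def Dt (V : ℝ × ℝ → ℝ) (p : ℝ × ℝ) : ℝ := fderiv ℝ V p (0, 1)

/-- `C¹` on the open rectangle, bounded together with its first derivatives -/
def AdmP (a b α : ℝ) (V : ℝ × ℝ → ℝ) : Prop :=
  ContDiffOn ℝ 1 V (Qo a b α) ∧
    ∃ M, ∀ p ∈ Qo a b α, |V p| ≤ M ∧ |Dr V p| ≤ M ∧ |Dt V p| ≤ M

section basic

variable {a b α : ℝ} {V : ℝ × ℝ → ℝ}

lemma AdmP.hasFDerivAt (h : AdmP a b α V) {p : ℝ × ℝ} (hp : p ∈ Qo a b α) :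
    HasFDerivAt V (fderiv ℝ V p) p :=
  ((h.1.contDiffAt ((isOpen_Qo a b α).mem_nhds hp)).differentiableAt (by norm_num)).hasFDerivAt

lemma AdmP.hasDerivAt_r (h : AdmP a b α V) {r θ : ℝ} (hp : (r, θ) ∈ Qo a b α) :
    HasDerivAt (fun r' => V (r', θ)) (Dr V (r, θ)) r := by
  have h1 := h.hasFDerivAt hp
  have h2 : HasDerivAt (fun r' : ℝ => (r', θ)) ((1 : ℝ), (0 : ℝ)) r :=
    (hasDerivAt_id r).prodMk (hasDerivAt_const r θ)
  exact h1.comp_hasDerivAt r h2

lemma AdmP.hasDerivAt_t (h : AdmP a b α V) {r θ : ℝ} (hp : (r, θ) ∈ Qo a b α) :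
    HasDerivAt (fun θ' => V (r, θ')) (Dt V (r, θ)) θ := by
  have h1 := h.hasFDerivAt hp
  have h2 : HasDerivAt (fun θ' : ℝ => (r, θ')) ((0 : ℝ), (1 : ℝ)) θ :=
    (hasDerivAt_const θ r).prodMk (hasDerivAt_id θ)
  exact h1.comp_hasDerivAt θ h2

lemma AdmP.continuousOn (h : AdmP a b α V) : ContinuousOn V (Qo a b α) := h.1.continuousOn

lemma AdmP.continuousOn_Dr (h : AdmP a b α V) : ContinuousOn (Dr V) (Qo a b α) :=
  (h.1.continuousOn_fderiv_of_isOpen (isOpen_Qo a b α) le_rfl).clm_apply continuousOn_const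

lemma AdmP.continuousOn_Dt (h : AdmP a b α V) : ContinuousOn (Dt V) (Qo a b α) :=
  (h.1.continuousOn_fderiv_of_isOpen (isOpen_Qo a b α) le_rfl).clm_apply continuousOn_const

lemma slice_t {F : ℝ × ℝ → ℝ} (hF : ContinuousOn F (Qo a b α)) {r : ℝ} (hr : r ∈ Ioo a b) :
    ContinuousOn (fun θ => F (r, θ)) (Ioo (-α) α) :=
  hF.comp (continuousOn_const.prodMk continuousOn_id) fun θ hθ => ⟨hr, hθ⟩

lemma slice_r_at {F : ℝ × ℝ → ℝ} (hF : ContinuousOn F (Qo a b α)) {r θ : ℝ}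
    (hp : (r, θ) ∈ Qo a b α) : ContinuousAt (fun r' => F (r', θ)) r := by
  have h1 : ContinuousAt F (r, θ) := hF.continuousAt ((isOpen_Qo a b α).mem_nhds hp)
  have h2 : ContinuousAt (fun r' : ℝ => (r', θ)) r := by fun_prop
  exact ContinuousAt.comp (f := fun r' : ℝ => (r', θ)) (g := F) h1 h2

end basic

/-- the angular mode `cos (j π (θ + α) / (2 α))` -/
noncomputable def md (α : ℝ) (j : ℕ) (θ : ℝ) : ℝ := Real.cos (j * ph α θ)

lemma continuous_md (α : ℝ) (j : ℕ) : Continuous (md α j) :=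
  Real.continuous_cos.comp (continuous_const.mul (continuous_ph α))

lemma abs_md_le (α : ℝ) (j : ℕ) (θ : ℝ) : |md α j θ| ≤ 1 := Real.abs_cos_le_one _

/-- mode coefficient -/
noncomputable def coef (α : ℝ) (U : ℝ × ℝ → ℝ) (j : ℕ) (r : ℝ) : ℝ :=
  ∫ θ in (-α)..α, U (r, θ) * md α j θ

/-- derivative of the mode coefficient -/
noncomputable def coef' (α : ℝ) (U : ℝ × ℝ → ℝ) (j : ℕ) (r : ℝ) : ℝ :=
  ∫ θ in (-α)..α, Dr U (r, θ) * md α j θ

section coefs

variable {a b α : ℝ} {U : ℝ × ℝ → ℝ}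

lemma ae_Ioo_of_uIoc (hα : 0 < α) {P : ℝ → Prop} (h : ∀ θ ∈ Ioo (-α) α, P θ) :
    ∀ᵐ θ ∂(volume : Measure ℝ), θ ∈ uIoc (-α) α → P θ := by
  have h1 : ∀ᵐ θ ∂(volume : Measure ℝ), θ ≠ α := by
    rw [ae_iff]; simp
  filter_upwards [h1] with θ hθ hI
  rw [uIoc_of_le (by linarith)] at hI
  exact h θ ⟨hI.1, lt_of_le_of_ne hI.2 hθ⟩

lemma aesm_slice (hα : 0 < α) {F : ℝ × ℝ → ℝ} (hF : ContinuousOn F (Qo a b α)) (j : ℕ) {r : ℝ}
    (hr : r ∈ Ioo a b) :
    AEStronglyMeasurable (fun θ => F (r, θ) * md α j θ) (volume.restrict (uIoc (-α) α)) := by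
  rw [uIoc_of_le (by linarith), ← restrict_Ioo_eq_restrict_Ioc]
  exact ((slice_t hF hr).mul (continuous_md α j).continuousOn).aestronglyMeasurable
    measurableSet_Ioo

lemma ii_slice (hα : 0 < α) {F : ℝ × ℝ → ℝ} (hF : ContinuousOn F (Qo a b α)) {M : ℝ}
    (hM : ∀ p ∈ Qo a b α, |F p| ≤ M) (j : ℕ) {r : ℝ} (hr : r ∈ Ioo a b) :
    IntervalIntegrable (fun θ => F (r, θ) * md α j θ) volume (-α) α := by
  refine ii_of_bdd (M := M) (by linarith)
    ((slice_t hF hr).mul (continuous_md α j).continuousOn) fun θ hθ => ?_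
  rw [abs_mul]
  have h1 := hM (r, θ) ⟨hr, hθ⟩
  have h2 := abs_md_le α j θ
  calc |F (r, θ)| * |md α j θ| ≤ M * 1 :=
        mul_le_mul h1 h2 (abs_nonneg _) (le_trans (abs_nonneg _) h1)
    _ = M := mul_one _

lemma abs_slice_integral_le (hα : 0 < α) {F : ℝ × ℝ → ℝ} {M : ℝ}
    (hM : ∀ p ∈ Qo a b α, |F p| ≤ M) (j : ℕ) {r : ℝ} (hr : r ∈ Ioo a b) :
    |∫ θ in (-α)..α, F (r, θ) * md α j θ| ≤ 2 * α * M := by
  have hle : -α ≤ α := by linarith
  have h := intervalIntegral.norm_integral_le_of_norm_le_const_ae (a := -α) (b := α) (C := M)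
    (f := fun θ => F (r, θ) * md α j θ) (ae_Ioo_of_uIoc hα fun θ hθ => by
      rw [Real.norm_eq_abs, abs_mul]
      have h1 := hM (r, θ) ⟨hr, hθ⟩
      have h2 := abs_md_le α j θ
      calc |F (r, θ)| * |md α j θ| ≤ M * 1 :=
            mul_le_mul h1 h2 (abs_nonneg _) (le_trans (abs_nonneg _) h1)
        _ = M := mul_one _)
  rw [Real.norm_eq_abs] at h
  have e : |α - -α| = 2 * α := by rw [abs_of_pos (by linarith)]; ring
  rw [e] at h
  linarith

lemma hasDerivAt_coef (hα : 0 < α) (hU : AdmP a b α U) (j : ℕ) {r : ℝ} (hr : r ∈ Ioo a b) :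
    HasDerivAt (coef α U j) (coef' α U j r) r := by
  obtain ⟨M, hM⟩ := hU.2
  have hs : Ioo a b ∈ 𝓝 r := Ioo_mem_nhds hr.1 hr.2
  have := intervalIntegral.hasDerivAt_integral_of_dominated_loc_of_deriv_le
    (μ := volume) (a := -α) (b := α)
    (F := fun r' θ => U (r', θ) * md α j θ) (F' := fun r' θ => Dr U (r', θ) * md α j θ)
    (x₀ := r) (s := Ioo a b) (bound := fun _ => M) hs
    (by
      filter_upwards [hs] with r' hr'
      exact aesm_slice hα hU.continuousOn j hr')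
    (ii_slice hα hU.continuousOn (fun p hp => (hM p hp).1) j hr)
    (aesm_slice hα hU.continuousOn_Dr j hr)
    (ae_Ioo_of_uIoc hα fun θ hθ r' hr' => by
      rw [Real.norm_eq_abs, abs_mul]
      have h1 := (hM (r', θ) ⟨hr', hθ⟩).2.1
      have h2 := abs_md_le α j θ
      calc |Dr U (r', θ)| * |md α j θ| ≤ M * 1 :=
            mul_le_mul h1 h2 (abs_nonneg _) (le_trans (abs_nonneg _) h1)
        _ = M := mul_one _)
    intervalIntegrable_const
    (ae_Ioo_of_uIoc hα fun θ hθ r' hr' => (hU.hasDerivAt_r ⟨hr', hθ⟩).mul_const _)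
  exact this.2

lemma continuousOn_coef' (hα : 0 < α) (hU : AdmP a b α U) (j : ℕ) :
    ContinuousOn (coef' α U j) (Ioo a b) := by
  obtain ⟨M, hM⟩ := hU.2
  intro r hr
  apply ContinuousAt.continuousWithinAt
  have hs : Ioo a b ∈ 𝓝 r := Ioo_mem_nhds hr.1 hr.2
  apply intervalIntegral.continuousAt_of_dominated_interval (bound := fun _ => M)
  · filter_upwards [hs] with r' hr'
    exact aesm_slice hα hU.continuousOn_Dr j hr'
  · filter_upwards [hs] with r' hr'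
    exact ae_Ioo_of_uIoc hα fun θ hθ => by
      rw [Real.norm_eq_abs, abs_mul]
      have h1 := (hM (r', θ) ⟨hr', hθ⟩).2.1
      have h2 := abs_md_le α j θ
      calc |Dr U (r', θ)| * |md α j θ| ≤ M * 1 :=
            mul_le_mul h1 h2 (abs_nonneg _) (le_trans (abs_nonneg _) h1)
        _ = M := mul_one _
  · exact intervalIntegrable_const
  · exact ae_Ioo_of_uIoc hα fun θ hθ => (slice_r_at hU.continuousOn_Dr ⟨hr, hθ⟩).mul continuousAt_const

lemma contDiffOn_coef (hα : 0 < α) (hU : AdmP a b α U) (j : ℕ) :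
    ContDiffOn ℝ 1 (coef α U j) (Ioo a b) := by
  rw [show (1 : WithTop ℕ∞) = 0 + 1 from rfl, contDiffOn_succ_iff_deriv_of_isOpen isOpen_Ioo]
  refine ⟨fun r hr => (hasDerivAt_coef hα hU j hr).differentiableAt.differentiableWithinAt,
    by simp, ?_⟩
  rw [contDiffOn_zero]
  exact (continuousOn_coef' hα hU j).congr fun r hr => (hasDerivAt_coef hα hU j hr).deriv

end coefs

end Vale.Agent.Lib.P071
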