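import Vale.Agent.Lib.P071.Cart

/-!
Annular sectors: transfer of admissible functions and of the forms.
-/

namespace Vale.Agent.Lib.P071

open MeasureTheory Set intervalIntegral Filter Topology

variable {a b α : ℝ}

lemma fderivPolar_e1 (p : ℝ × ℝ) :
    fderivPolarCoordSymm p (1, 0) = (Real.cos p.2, Real.sin p.2) := by
  unfold fderivPolarCoordSymm
  rw [Matrix.toLin_finTwoProd_toContinuousLinearMap]
  simp

lemma fderivPolar_e2 (p : ℝ × ℝ) :
    fderivPolarCoordSymm p (0, 1) = (-p.1 * Real.sin p.2, p.1 * Real.cos p.2) := by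
  unfold fderivPolarCoordSymm
  rw [Matrix.toLin_finTwoProd_toContinuousLinearMap]
  simp

lemma clm_apply_pair (L : ℝ × ℝ →L[ℝ] ℝ) (c s : ℝ) : L (c, s) = c * L (1, 0) + s * L (0, 1) := by
  have : ((c, s) : ℝ × ℝ) = c • ((1 : ℝ), (0 : ℝ)) + s • ((0 : ℝ), (1 : ℝ)) := by
    ext <;> simp
  rw [this, map_add, map_smul, map_smul]
  simp

lemma Dr_comp {w : ℝ × ℝ → ℝ} {p : ℝ × ℝ} (hw : DifferentiableAt ℝ w (polarCoord.symm p)) :
    Dr (w ∘ polarCoord.symm) p =
      D1 w (polarCoord.symm p) * Real.cos p.2 + D2 w (polarCoord.symm p) * Real.sin p.2 := by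
  unfold Dr D1 D2
  rw [(hw.hasFDerivAt.comp p (hasFDerivAt_polarCoord_symm p)).fderiv]
  rw [ContinuousLinearMap.comp_apply, fderivPolar_e1, clm_apply_pair]
  ring

lemma Dt_comp {w : ℝ × ℝ → ℝ} {p : ℝ × ℝ} (hw : DifferentiableAt ℝ w (polarCoord.symm p)) :
    Dt (w ∘ polarCoord.symm) p =
      p.1 * (-D1 w (polarCoord.symm p) * Real.sin p.2 +
        D2 w (polarCoord.symm p) * Real.cos p.2) := by
  unfold Dt D1 D2
  rw [(hw.hasFDerivAt.comp p (hasFDerivAt_polarCoord_symm p)).fderiv]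
  rw [ContinuousLinearMap.comp_apply, fderivPolar_e2, clm_apply_pair]
  ring

lemma contDiff_Ph : ContDiff ℝ 1 (polarCoord.symm : ℝ × ℝ → ℝ × ℝ) := by
  have : (polarCoord.symm : ℝ × ℝ → ℝ × ℝ) =
      fun p => (p.1 * Real.cos p.2, p.1 * Real.sin p.2) := rfl
  rw [this]
  fun_prop

lemma contDiffAt_polarCoord {x : ℝ × ℝ} (hx : x ∈ polarCoord.source) :
    ContDiffAt ℝ 1 polarCoord x := by
  have hpos : 0 < (polarCoord x).1 := (polarCoord.map_source hx).1
  have hdet : (fderivPolarCoordSymm (polarCoord x)).det ≠ 0 := by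
    rw [det_fderivPolarCoordSymm]; exact hpos.ne'
  have h := polarCoord.symm.contDiffAt_symm (n := 1) (a := x)
    (f₀' := (fderivPolarCoordSymm (polarCoord x)).toContinuousLinearEquivOfDetNeZero hdet)
    (by simpa using hx)
    (by
      rw [ContinuousLinearMap.coe_toContinuousLinearEquivOfDetNeZero]
      simpa using hasFDerivAt_polarCoord_symm (polarCoord x))
    contDiff_Ph.contDiffAt
  simpa using h

lemma Adm.differentiableAt (ha : 0 < a) (hα : α ≤ Real.pi) {v : ℝ × ℝ → ℝ}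
    (hv : Adm (sector a b α) v) {x : ℝ × ℝ} (hx : x ∈ sector a b α) : DifferentiableAt ℝ v x :=
  (hv.1.contDiffAt ((isOpen_sector ha hα).mem_nhds hx)).differentiableAt (by norm_num)

lemma Adm.continuousOn_D1 (ha : 0 < a) (hα : α ≤ Real.pi) {v : ℝ × ℝ → ℝ}
    (hv : Adm (sector a b α) v) : ContinuousOn (D1 v) (sector a b α) :=
  (hv.1.continuousOn_fderiv_of_isOpen (isOpen_sector ha hα) le_rfl).clm_apply continuousOn_const

lemma Adm.continuousOn_D2 (ha : 0 < a) (hα : α ≤ Real.pi) {v : ℝ × ℝ → ℝ}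
    (hv : Adm (sector a b α) v) : ContinuousOn (D2 v) (sector a b α) :=
  (hv.1.continuousOn_fderiv_of_isOpen (isOpen_sector ha hα) le_rfl).clm_apply continuousOn_const

/-- pullback of admissible functions -/
lemma admP_of_adm (ha : 0 < a) (hα : α ≤ Real.pi) {v : ℝ × ℝ → ℝ}
    (hv : Adm (sector a b α) v) : AdmP a b α (v ∘ polarCoord.symm) := by
  refine ⟨hv.1.comp contDiff_Ph.contDiffOn fun q hq => Ph_mem_sector hq, ?_⟩
  obtain ⟨M, hM⟩ := hv.2
  refine ⟨2 * M * (1 + b), ?_⟩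
  intro q hq
  have hx := Ph_mem_sector hq
  obtain ⟨h1, h2, h3⟩ := hM _ hx
  have hd := hv.differentiableAt ha hα hx
  have hM0 : 0 ≤ M := le_trans (abs_nonneg _) h1
  have hq1 : 0 < q.1 := lt_trans ha hq.1.1
  have hq2 : q.1 < b := hq.1.2
  have hc := Real.abs_cos_le_one q.2
  have hs := Real.abs_sin_le_one q.2
  have hb : 0 < b := lt_trans hq1 hq2
  have k1 : |D1 v (polarCoord.symm q) * Real.cos q.2| ≤ M := by
    rw [abs_mul]; nlinarith [abs_nonneg (D1 v (polarCoord.symm q)), abs_nonneg (Real.cos q.2)]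
  have k2 : |D2 v (polarCoord.symm q) * Real.sin q.2| ≤ M := by
    rw [abs_mul]; nlinarith [abs_nonneg (D2 v (polarCoord.symm q)), abs_nonneg (Real.sin q.2)]
  have k3 : |-D1 v (polarCoord.symm q) * Real.sin q.2| ≤ M := by
    rw [abs_mul, abs_neg]
    nlinarith [abs_nonneg (D1 v (polarCoord.symm q)), abs_nonneg (Real.sin q.2)]
  have k4 : |D2 v (polarCoord.symm q) * Real.cos q.2| ≤ M := by
    rw [abs_mul]; nlinarith [abs_nonneg (D2 v (polarCoord.symm q)), abs_nonneg (Real.cos q.2)]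
  refine ⟨?_, ?_, ?_⟩
  · simp only [Function.comp]
    nlinarith
  · rw [Dr_comp hd]
    have := abs_add_le (D1 v (polarCoord.symm q) * Real.cos q.2)
      (D2 v (polarCoord.symm q) * Real.sin q.2)
    nlinarith
  · rw [Dt_comp hd, abs_mul, abs_of_pos hq1]
    have := abs_add_le (-D1 v (polarCoord.symm q) * Real.sin q.2)
      (D2 v (polarCoord.symm q) * Real.cos q.2)
    have h5 : |-D1 v (polarCoord.symm q) * Real.sin q.2 +
      D2 v (polarCoord.symm q) * Real.cos q.2| ≤ 2 * M := by linarith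
    have h6 := abs_nonneg (-D1 v (polarCoord.symm q) * Real.sin q.2 +
      D2 v (polarCoord.symm q) * Real.cos q.2)
    nlinarith

lemma push_comp_eq (ha : 0 < a) (hα : α ≤ Real.pi) (V : ℝ × ℝ → ℝ) {q : ℝ × ℝ}
    (hq : q ∈ Qo a b α) : ((V ∘ polarCoord) ∘ polarCoord.symm) q = V q := by
  simp only [Function.comp]
  rw [polarCoord.right_inv (Qo_subset_target ha hα hq)]

lemma fderiv_eq_of_eqOn {V W : ℝ × ℝ → ℝ} (h : EqOn V W (Qo a b α)) {q : ℝ × ℝ}
    (hq : q ∈ Qo a b α) : fderiv ℝ V q = fderiv ℝ W q := by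
  apply Filter.EventuallyEq.fderiv_eq
  filter_upwards [(isOpen_Qo a b α).mem_nhds hq] with x hx using h hx

lemma Dr_eq_of_eqOn {V W : ℝ × ℝ → ℝ} (h : EqOn V W (Qo a b α)) {q : ℝ × ℝ}
    (hq : q ∈ Qo a b α) : Dr V q = Dr W q := by
  unfold Dr; rw [fderiv_eq_of_eqOn h hq]

lemma Dt_eq_of_eqOn {V W : ℝ × ℝ → ℝ} (h : EqOn V W (Qo a b α)) {q : ℝ × ℝ}
    (hq : q ∈ Qo a b α) : Dt V q = Dt W q := by
  unfold Dt; rw [fderiv_eq_of_eqOn h hq]

/-- pushforward of admissible functions -/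
lemma adm_of_admP (ha : 0 < a) (hα : α ≤ Real.pi) {V : ℝ × ℝ → ℝ}
    (hV : AdmP a b α V) : Adm (sector a b α) (V ∘ polarCoord) := by
  have hcd : ContDiffOn ℝ 1 (V ∘ polarCoord) (sector a b α) :=
    hV.1.comp (fun x hx => (contDiffAt_polarCoord
      (sector_subset_source ha hα hx)).contDiffWithinAt) fun x hx => polar_mem_Qo ha hα hx
  refine ⟨hcd, ?_⟩
  obtain ⟨M, hM⟩ := hV.2
  refine ⟨M + M / a, ?_⟩
  intro x hx
  have hq := polar_mem_Qo ha hα hx
  have hxe : polarCoord.symm (polarCoord x) = x :=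
    polarCoord.left_inv (sector_subset_source ha hα hx)
  set q := polarCoord x with hqdef
  obtain ⟨h1, h2, h3⟩ := hM q hq
  have hM0 : 0 ≤ M := le_trans (abs_nonneg _) h1
  have hd : DifferentiableAt ℝ (V ∘ polarCoord) (polarCoord.symm q) := by
    rw [hxe]
    exact (hcd.contDiffAt ((isOpen_sector ha hα).mem_nhds hx)).differentiableAt (by norm_num)
  have e1 := Dr_comp hd
  have e2 := Dt_comp hd
  have heq : EqOn ((V ∘ polarCoord) ∘ polarCoord.symm) V (Qo a b α) :=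
    fun q hq => push_comp_eq ha hα V hq
  rw [Dr_eq_of_eqOn heq hq, hxe] at e1
  rw [Dt_eq_of_eqOn heq hq, hxe] at e2
  have hq1 : a < q.1 := hq.1.1
  have hq0 : 0 < q.1 := lt_trans ha hq1
  have hcs := Real.cos_sq_add_sin_sq q.2
  set A := D1 (V ∘ polarCoord) x
  set B := D2 (V ∘ polarCoord) x
  set c := Real.cos q.2
  set s := Real.sin q.2
  have hc : |c| ≤ 1 := Real.abs_cos_le_one q.2
  have hs : |s| ≤ 1 := Real.abs_sin_le_one q.2
  have e3 : Dt V q / q.1 = -A * s + B * c := by rw [e2]; field_simp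
  have hA : A = Dr V q * c - Dt V q / q.1 * s := by rw [e1, e3]; linear_combination (-A) * hcs
  have hB : B = Dr V q * s + Dt V q / q.1 * c := by rw [e1, e3]; linear_combination (-B) * hcs
  have h4 : |Dt V q / q.1| ≤ M / a := by
    rw [abs_div, abs_of_pos hq0]
    exact div_le_div₀ hM0 h3 ha hq1.le
  have hMa : 0 ≤ M / a := by positivity
  have m1 : ∀ y z Y : ℝ, |y| ≤ Y → |z| ≤ 1 → |y * z| ≤ Y := by
    intro y z Y hy hz
    rw [abs_mul]
    nlinarith [abs_nonneg y, abs_nonneg z]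
  refine ⟨?_, ?_, ?_⟩
  · simp only [Function.comp]
    linarith
  · rw [hA]
    have := abs_sub (Dr V q * c) (Dt V q / q.1 * s)
    linarith [m1 _ _ _ h2 hc, m1 _ _ _ h4 hs]
  · rw [hB]
    have := abs_add_le (Dr V q * s) (Dt V q / q.1 * c)
    linarith [m1 _ _ _ h2 hs, m1 _ _ _ h4 hc]

end Vale.Agent.Lib.P071
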